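import Mathlib
import Vale.Agent.Lib.P302.helper9.Th431.Base

/-!
# P302: chunks of the mask search of the 431-item instance (part 0)
-/

namespace Vale.Agent.Lib.P302.helper9.Th431

open Vale.Agent.Lib.P302.helper14 Vale.Agent.Lib.P302.helper8 Vale.Agent.Lib.P302.helper9

theorem ok_p0_0 : stepOKDR rows prio cap p0_0 lay1
    [0, 1, 2] = true := by
  decide +kernel

theorem ok_p1_0 : stepOKDR rows prio cap p1_0 lay2
    [1, 2, 3, 2, 4, 5, 4, 64, 0] = true := by
  decide +kernel

theorem ok_p2_0 : stepOKDR rows prio cap p2_0 lay3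
    [4, 4, 5, 64, 65, 65, 0, 65, 66, 67, 67, 1, 67, 2, 3] = true := by
  decide +kernel

theorem ok_p2_1 : stepOKDR rows prio cap p2_1 lay3
    [65, 67, 68, 3] = true := by
  decide +kernel

theorem ok_p3_0 : stepOKDR rows prio cap p3_0 lay4
    [66, 64, 65, 66, 0, 66, 1, 1, 1, 1, 2, 2, 2, 2, 4, 3, 4, 4, 5] = true := by
  decide +kernel

theorem ok_p3_1 : stepOKDR rows prio cap p3_1 lay4
    [65, 66, 67, 68, 1, 68, 1, 69, 128, 2, 128, 2, 5] = true := by
  decide +kernel

theorem ok_p4_0 : stepOKDR rows prio cap p4_0 lay5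
    [1, 1, 1, 2, 3, 3, 129, 4, 5, 64, 64, 65, 66, 67, 0] = true := by
  decide +kernel

theorem ok_p4_1 : stepOKDR rows prio cap p4_1 lay5
    [68, 68, 1, 1, 69, 1, 69, 1, 1, 1, 128, 2, 129, 4, 5] = true := by
  decide +kernel

theorem ok_p4_2 : stepOKDR rows prio cap p4_2 lay5
    [69, 65] = true := by
  decide +kernel

theorem ok_p5_0 : stepOKDR rows prio cap p5_0 lay6
    [0, 67, 68, 68, 193, 69, 68, 128, 129, 1, 131, 130, 2, 2, 131, 3, 132, 4, 5] = true := by
  decide +kernel

theorem ok_p5_1 : stepOKDR rows prio cap p5_1 lay6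
    [192, 67, 67, 68, 193, 69, 69, 69, 128, 130, 132, 133, 5, 64, 65, 66] = true := by
  decide +kernel

theorem ok_p5_2 : stepOKDR rows prio cap p5_2 lay6
    [192, 193, 194, 194, 129, 129, 131, 131] = true := by
  decide +kernel

theorem ok_p6_0 : stepOKDR rows prio cap p6_0 lay7
    [5, 67, 69, 1, 129, 3, 131, 133, 64, 133, 66] = true := by
  decide +kernel

theorem ok_p6_1 : stepOKDR rows prio cap p6_1 lay7
    [0, 1, 2, 69, 128, 130, 129, 130, 129, 3, 64, 66, 68] = true := by
  decide +kernel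

theorem ok_p6_2 : stepOKDR rows prio cap p6_2 lay7
    [3, 4, 64, 65, 66, 68, 69, 128, 129, 130, 131, 131, 132, 132, 133, 133] = true := by
  decide +kernel

theorem ok_p6_3 : stepOKDR rows prio cap p6_3 lay7
    [192, 193, 193, 128, 128, 130, 130, 132, 132] = true := by
  decide +kernel

theorem ok_p7_0 : stepOKDR rows prio cap p7_0 lay8
    [0, 3, 65, 1, 3, 2, 130, 3, 4, 5, 5, 131] = true := by
  decide +kernel

theorem ok_p7_1 : stepOKDR rows prio cap p7_1 lay8
    [0, 3, 3, 130, 66, 5, 64, 5, 128] = true := by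
  decide +kernel

theorem ok_p7_2 : stepOKDR rows prio cap p7_2 lay8
    [2, 4, 64, 65, 65, 129, 129, 129, 66, 66, 130, 67, 131, 131, 132] = true := by
  decide +kernel

theorem ok_p7_3 : stepOKDR rows prio cap p7_3 lay8
    [133, 68, 69, 133] = true := by
  decide +kernel

theorem ok_p8_0 : stepOKDR rows prio cap p8_0 lay9
    [69, 69, 0, 0, 69, 69, 1, 1, 1, 69, 69, 2, 69, 69, 3, 4] = true := by
  decide +kernel

theorem ok_p8_1 : stepOKDR rows prio cap p8_1 lay9
    [2, 5, 66, 69, 67, 64, 69, 65, 67, 65, 65, 69] = true := by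
  decide +kernel

theorem ok_p8_2 : stepOKDR rows prio cap p8_2 lay9
    [128, 68, 69, 69, 69, 69, 69, 69, 128, 128, 128, 69, 69, 129] = true := by
  decide +kernel

end Vale.Agent.Lib.P302.helper9.Th431
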