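import Mathlib
import Vale.Agent.Lib.P302.helper9.Th431.Base

/-!
# P302: chunks of the mask search of the 431-item instance (part 1)
-/

namespace Vale.Agent.Lib.P302.helper9.Th431

open Vale.Agent.Lib.P302.helper14 Vale.Agent.Lib.P302.helper8 Vale.Agent.Lib.P302.helper9

theorem ok_p9_0 : stepOKDR rows prio cap p9_0 lay10
    [0, 1, 2, 64, 66, 68, 3, 4, 5, 64, 64, 65, 65, 66, 66, 67, 68, 68] = true := by
  decide +kernel

theorem ok_p9_1 : stepOKDR rows prio cap p9_1 lay10
    [130, 69, 131, 132, 128, 195, 128, 133, 128, 194, 129, 194, 195] = true := by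
  decide +kernel

theorem ok_p9_2 : stepOKDR rows prio cap p9_2 lay10
    [133, 192, 133, 193, 194, 195] = true := by
  decide +kernel

theorem ok_p10_0 : stepOKDR rows prio cap p10_0 lay11
    [0, 0, 1, 1, 2, 2, 3, 4, 5, 64, 65, 66] = true := by
  decide +kernel

theorem ok_p10_1 : stepOKDR rows prio cap p10_1 lay11
    [3, 4, 5, 3, 4, 5, 67, 67, 67, 67, 68, 68, 69, 69, 69, 128, 129] = true := by
  decide +kernel

theorem ok_p10_2 : stepOKDR rows prio cap p10_2 lay11
    [68, 131, 196, 128, 132, 132, 192, 193, 130, 130, 196, 130] = true := by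
  decide +kernel

theorem ok_p10_3 : stepOKDR rows prio cap p10_3 lay11
    [133, 133, 194, 194, 195, 194, 196, 196, 196, 68] = true := by
  decide +kernel

theorem ok_p11_0 : stepOKDR rows prio cap p11_0 lay12
    [0, 0, 1, 1, 2, 2, 3, 4, 5, 64, 65, 66, 0, 67, 67, 1, 68, 2] = true := by
  decide +kernel

theorem ok_p11_1 : stepOKDR rows prio cap p11_1 lay12
    [0, 1, 2, 67, 68, 0, 69, 69, 1, 128, 2, 67, 129, 129, 129, 129, 130, 68] = true := by
  decide +kernel

theorem ok_p11_2 : stepOKDR rows prio cap p11_2 lay12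
    [129, 131, 131, 192, 193, 131, 132, 257, 258, 132, 194, 194, 133, 195, 196, 132] = true := by
  decide +kernel

theorem ok_p11_3 : stepOKDR rows prio cap p11_3 lay12
    [193, 192, 192, 194, 197, 256, 192, 257, 257, 192, 258, 257, 129] = true := by
  decide +kernel

theorem ok_p12_0 : stepOKDR rows prio cap p12_0 lay13
    [0, 0, 1, 1, 2, 4, 4, 5, 3, 64, 65, 66, 67, 67, 68, 69] = true := by
  decide +kernel

theorem ok_p12_1 : stepOKDR rows prio cap p12_1 lay13
    [0, 0, 5, 3, 64, 65, 69, 128, 129, 129, 0, 0, 130, 130, 3, 3, 0, 0, 131] = true := by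
  decide +kernel

theorem ok_p12_2 : stepOKDR rows prio cap p12_2 lay13
    [131, 3, 130, 131, 3, 3, 130, 132, 130, 132, 132, 132, 192, 192, 133, 133, 133, 133, 193] = true := by
  decide +kernel

theorem ok_p12_3 : stepOKDR rows prio cap p12_3 lay13
    [195, 197, 195, 194, 197, 196, 194, 194, 256, 257, 258, 259, 258] = true := by
  decide +kernel

theorem ok_p12_4 : stepOKDR rows prio cap p12_4 lay13
    [194, 194, 256, 260, 194, 194, 130, 194, 194, 131] = true := by
  decide +kernel

theorem ok_p13_0 : stepOKDR rows prio cap p13_0 lay14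
    [2, 0, 1, 1, 1, 3, 3, 66, 65, 66, 64, 1] = true := by
  decide +kernel

theorem ok_p13_1 : stepOKDR rows prio cap p13_1 lay14
    [2, 1, 3, 256, 66, 256, 67, 67, 68, 69, 69, 128, 129, 129] = true := by
  decide +kernel

theorem ok_p13_2 : stepOKDR rows prio cap p13_2 lay14
    [1, 5, 4, 67, 256, 68, 130, 130, 131, 132, 133] = true := by
  decide +kernel

theorem ok_p13_3 : stepOKDR rows prio cap p13_3 lay14
    [196, 193, 256, 193, 257, 192, 256, 257, 197, 1, 1, 194, 195] = true := by
  decide +kernel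

end Vale.Agent.Lib.P302.helper9.Th431
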