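import Mathlib
import Vale.Agent.Lib.P302.helper9.Th431.Base

/-!
# P302: chunks of the mask search of the 431-item instance (part 2)
-/

namespace Vale.Agent.Lib.P302.helper9.Th431

open Vale.Agent.Lib.P302.helper14 Vale.Agent.Lib.P302.helper8 Vale.Agent.Lib.P302.helper9

theorem ok_p13_4 : stepOKDR rows prio cap p13_4 lay14
    [257, 256, 256, 196, 258, 258, 259, 260, 261, 261, 261, 320, 320] = true := by
  decide +kernel

theorem ok_p14_0 : stepOKDR rows prio cap p14_0 lay15
    [0, 1, 67, 64, 5, 64, 5, 64, 5, 65, 65, 66, 66, 65, 66, 65, 66, 66, 68] = true := by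
  decide +kernel

theorem ok_p14_1 : stepOKDR rows prio cap p14_1 lay15
    [3, 2, 4, 67, 64, 5, 65, 1, 128, 69, 69, 69, 129, 130] = true := by
  decide +kernel

theorem ok_p14_2 : stepOKDR rows prio cap p14_2 lay15
    [65, 66, 66, 128, 3, 4, 131, 132, 133, 66, 66, 66, 66, 66, 66, 194] = true := by
  decide +kernel

theorem ok_p14_3 : stepOKDR rows prio cap p14_3 lay15
    [5, 192, 192, 259, 193, 257, 195, 195, 194, 259, 259, 65, 320, 196] = true := by
  decide +kernel

theorem ok_p14_4 : stepOKDR rows prio cap p14_4 lay15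
    [256, 197, 257, 258, 258, 260, 260, 259, 259, 5, 320, 320] = true := by
  decide +kernel

theorem ok_p14_5 : stepOKDR rows prio cap p14_5 lay15
    [256, 261] = true := by
  decide +kernel

theorem ok_p15_0 : stepOKDR rows prio cap p15_0 lay16
    [2, 1, 1, 0, 0, 3, 5, 64, 4, 65, 67, 68, 67] = true := by
  decide +kernel

theorem ok_p15_1 : stepOKDR rows prio cap p15_1 lay16
    [69, 2, 67, 1, 69, 69, 68, 69, 68, 66, 66, 66, 66, 4] = true := by
  decide +kernel

theorem ok_p15_2 : stepOKDR rows prio cap p15_2 lay16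
    [2, 3, 5, 64, 65, 67, 64] = true := by
  decide +kernel

theorem ok_p15_3 : stepOKDR rows prio cap p15_3 lay16
    [0, 67, 69, 132, 128, 129, 132, 0, 129] = true := by
  decide +kernel

theorem ok_p15_4 : stepOKDR rows prio cap p15_4 lay16
    [130, 131, 130, 130, 132, 132, 67, 130, 69] = true := by
  decide +kernel

theorem ok_p15_5 : stepOKDR rows prio cap p15_5 lay16
    [132] = true := by
  decide +kernel

theorem ok_p16_0 : stepOKDR rows prio cap p16_0 lay17
    [1, 0, 2, 2, 66, 3, 3, 4] = true := by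
  decide +kernel

theorem ok_p16_1 : stepOKDR rows prio cap p16_1 lay17
    [1, 0, 2, 3, 66, 64, 65, 66, 5] = true := by
  decide +kernel

theorem ok_p16_2 : stepOKDR rows prio cap p16_2 lay17
    [2, 3, 64, 67, 2, 3] = true := by
  decide +kernel

theorem ok_p17_0 : stepOKDR rows prio cap p17_0 lay18
    [1, 1, 64, 1, 0, 0, 3, 3, 2, 2, 4, 4, 5, 66, 65, 67, 0, 3, 2, 4,
     1, 0, 3, 2, 4, 64, 5, 66, 65, 67] = true := by
  decide +kernel

theorem ok_p17_1 : stepOKDR rows prio cap p17_1 lay18
    [1, 64, 64, 0, 3, 2, 4, 5, 5, 66, 66, 65, 65, 67, 67, 1, 0, 3, 2, 4] = true := by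
  decide +kernel

theorem ok_p18_0 : stepOKDR rows prio cap p18_0 lay19
    [0, 3, 2, 4, 1, 66, 68, 67, 69, 66] = true := by
  decide +kernel

theorem ok_p18_1 : stepOKDR rows prio cap p18_1 lay19
    [64, 5, 65, 68, 67, 69, 66, 68, 67, 69] = true := by
  decide +kernel

theorem ok_p19_0 : stepOKDR rows prio cap p19_0 lay20
    [1, 0, 2, 5, 7, 3, 6, 1, 0, 2, 5, 3, 6] = true := by
  decide +kernel

end Vale.Agent.Lib.P302.helper9.Th431
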