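import Mathlib
import Vale.Agent.Lib.P302.helper9.Th431.Base
import Vale.Agent.Lib.P302.helper9.Th431.K0

/-!
# P302: chunks of the mask search of the 431-item instance (part 3)
-/

namespace Vale.Agent.Lib.P302.helper9.Th431

open Vale.Agent.Lib.P302.helper14 Vale.Agent.Lib.P302.helper8 Vale.Agent.Lib.P302.helper9

theorem ok_p19_1 : stepOKDR rows prio cap p19_1 lay20
    [4, 1, 2, 5, 7, 6, 66, 65, 67, 68, 70, 64, 69] = true := by
  decide +kernel

theorem ok_p20_0 : stepOKDR rows1 prio1 cap p20_0 lay21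
    [0, 7, 2, 4, 1, 3, 5, 64, 6] = true := by
  decide +kernel

theorem ok_p20_1 : stepOKDR rows1 prio1 cap p20_1 lay21
    [65, 67, 66, 69, 129, 128, 71, 70, 130, 68] = true := by
  decide +kernel

theorem ok_p21_0 : stepOKDR rows1 prio1 cap p21_0 lay22
    [0, 6, 5, 7, 65, 68, 67, 70, 69, 66, 71] = true := by
  decide +kernel

theorem ok_p21_1 : stepOKDR rows1 prio1 cap p21_1 lay22
    [3, 2, 1, 64, 128, 129, 131, 130, 129, 129, 131, 130, 132] = true := by
  decide +kernel

theorem ok_p21_2 : stepOKDR rows1 prio1 cap p21_2 lay22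
    [4, 131, 130, 134, 133] = true := by
  decide +kernel

theorem ok_p22_0 : stepOKDR rows1 prio1 cap p22_0 lay23
    [4, 66, 65, 67, 64, 69, 68, 70, 69, 68, 70] = true := by
  decide +kernel

theorem ok_p22_1 : stepOKDR rows1 prio1 cap p22_1 lay23
    [0, 2, 1, 3, 71, 69, 68, 71, 70, 129, 128, 130] = true := by
  decide +kernel

theorem ok_p22_2 : stepOKDR rows1 prio1 cap p22_2 lay23
    [5, 7, 6, 71, 131, 132, 134, 133, 5, 7, 6] = true := by
  decide +kernel

theorem ok_p23_0 : stepOKDR rows1 prio1 cap p23_0 lay24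
    [3, 5, 7, 6, 64, 66, 68, 67, 71, 130, 129] = true := by
  decide +kernel

theorem ok_p23_1 : stepOKDR rows1 prio1 cap p23_1 lay24
    [1, 0, 4, 2, 70, 69, 128, 65, 132, 131, 134, 133] = true := by
  decide +kernel

theorem ok_p23_2 : stepOKDR rows1 prio1 cap p23_2 lay24
    [71, 130, 129, 1, 0, 4, 2, 135, 193, 192] = true := by
  decide +kernel

theorem ok_p24_0 : stepOKDR rows1 prio1 cap p24_0 lay25
    [0, 66, 3, 2, 67, 7, 4, 1, 6, 5, 68, 65] = true := by
  decide +kernel

theorem ok_p24_1 : stepOKDR rows1 prio1 cap p24_1 lay25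
    [64, 71, 70, 69, 129, 134, 133, 128, 132, 131, 135] = true := by
  decide +kernel

theorem ok_p24_2 : stepOKDR rows1 prio1 cap p24_2 lay25
    [6, 5, 68, 65, 129, 130, 193, 192, 195, 194, 197, 196, 198] = true := by
  decide +kernel

theorem ok_p24_3 : stepOKDR rows1 prio1 cap p24_3 lay25
    [134, 133, 256, 199] = true := by
  decide +kernel

theorem ok_p25_0 : stepOKDR rows1 prio1 cap p25_0 lay26
    [0, 2, 1, 6, 5, 67, 4, 3, 66, 64, 7] = true := by
  decide +kernel

theorem ok_p25_1 : stepOKDR rows1 prio1 cap p25_1 lay26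
    [69, 65, 71, 70, 128, 68, 133, 132, 129] = true := by
  decide +kernel

theorem ok_p25_2 : stepOKDR rows1 prio1 cap p25_2 lay26
    [130, 192, 135, 134, 197, 196, 131, 195, 194, 193, 134, 197, 196, 131, 198] = true := by
  decide +kernel

end Vale.Agent.Lib.P302.helper9.Th431
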