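import Mathlib
import Vale.Agent.Lib.P302.helper9.Th431.Base
import Vale.Agent.Lib.P302.helper9.Th431.K1

/-!
# P302: chunks of the mask search of the 431-item instance (part 4)
-/

namespace Vale.Agent.Lib.P302.helper9.Th431

open Vale.Agent.Lib.P302.helper14 Vale.Agent.Lib.P302.helper8 Vale.Agent.Lib.P302.helper9

theorem ok_p25_3 : stepOKDR rows1 prio1 cap p25_3 lay26
    [6, 5, 71, 67, 134, 196, 194, 193, 256, 199, 258, 257, 260, 259, 261, 262] = true := by
  decide +kernel

theorem ok_p25_4 : stepOKDR rows1 prio1 cap p25_4 lay26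
    [197, 263] = true := by
  decide +kernel

theorem ok_p26_0 : stepOKDR rows1 prio1 cap p26_0 lay27
    [0, 3, 2, 64, 7, 6, 5, 1, 4, 64, 7, 4, 65] = true := by
  decide +kernel

theorem ok_p26_1 : stepOKDR rows1 prio1 cap p26_1 lay27
    [128, 129, 67, 131, 70, 69, 130, 68, 131, 70, 5, 68, 66, 71] = true := by
  decide +kernel

theorem ok_p26_2 : stepOKDR rows1 prio1 cap p26_2 lay27
    [130, 132, 134, 194, 193, 133, 195, 199, 256, 195] = true := by
  decide +kernel

theorem ok_p26_3 : stepOKDR rows1 prio1 cap p26_3 lay27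
    [192, 135, 196, 198, 197, 257, 198, 197, 199, 256] = true := by
  decide +kernel

theorem ok_p26_4 : stepOKDR rows1 prio1 cap p26_4 lay27
    [64, 7, 131, 70, 199, 257, 256, 257, 259, 258, 261, 260] = true := by
  decide +kernel

theorem ok_p27_0 : stepOKDR rows1 prio1 cap p27_0 lay28
    [0, 2, 4, 1, 6, 5, 64, 7, 5] = true := by
  decide +kernel

theorem ok_p27_1 : stepOKDR rows1 prio1 cap p27_1 lay28
    [3, 65, 66, 67, 68, 6, 67, 64, 7, 68] = true := by
  decide +kernel

theorem ok_p27_2 : stepOKDR rows1 prio1 cap p27_2 lay28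
    [69, 70, 71, 128, 71, 128, 132, 129, 134] = true := by
  decide +kernel

theorem ok_p27_3 : stepOKDR rows1 prio1 cap p27_3 lay28
    [131, 132, 130, 135, 133, 134, 132] = true := by
  decide +kernel

theorem ok_p27_4 : stepOKDR rows1 prio1 cap p27_4 lay28
    [64, 7, 128, 68, 135, 134] = true := by
  decide +kernel

theorem ok_p28_0 : stepOKDR rows1 prio1 cap p28_0 lay29
    [64, 68, 66, 65, 67, 67] = true := by
  decide +kernel

theorem ok_p28_1 : stepOKDR rows1 prio1 cap p28_1 lay29
    [0, 69, 71, 70, 68, 70] = true := by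
  decide +kernel

theorem ok_p28_2 : stepOKDR rows1 prio1 cap p28_2 lay29
    [2, 6, 5, 4, 3, 7, 1, 71, 3, 7, 1] = true := by
  decide +kernel

theorem ok_p29_0 : stepOKDR rows1 prio1 cap p29_0 lay30
    [7, 66, 68, 67, 69, 129, 128, 71, 70, 70, 130, 65, 130, 65] = true := by
  decide +kernel

theorem ok_p29_1 : stepOKDR rows1 prio1 cap p29_1 lay30
    [0, 3, 2, 64, 5, 4, 1, 6, 0, 4, 1, 6] = true := by
  decide +kernel

theorem ok_p30_0 : stepOKDR rows1 prio1 cap p30_0 lay31
    [0, 0, 3, 2, 7, 67, 5, 4, 64, 6, 1, 6, 1, 65] = true := by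
  decide +kernel

end Vale.Agent.Lib.P302.helper9.Th431
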