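import Mathlib
import Vale.Agent.Lib.P302.helper9.Th431.Base
import Vale.Agent.Lib.P302.helper9.Th431.K2

/-!
# P302: chunks of the mask search of the 431-item instance (part 5)
-/

namespace Vale.Agent.Lib.P302.helper9.Th431

open Vale.Agent.Lib.P302.helper14 Vale.Agent.Lib.P302.helper8 Vale.Agent.Lib.P302.helper9

theorem ok_p30_1 : stepOKDR rows1 prio1 cap p30_1 lay31
    [66, 68, 65, 70, 128, 71, 70, 129, 131, 69, 130, 129, 129, 69] = true := by
  decide +kernel

theorem ok_p30_2 : stepOKDR rows1 prio1 cap p30_2 lay31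
    [128, 71, 131, 131, 69] = true := by
  decide +kernel

theorem ok_p31_0 : stepOKDR rows1 prio1 cap p31_0 lay32
    [0, 0, 3, 2, 5, 3, 2, 4, 1, 4, 1, 4, 1] = true := by
  decide +kernel

theorem ok_p31_1 : stepOKDR rows1 prio1 cap p31_1 lay32
    [0, 7, 7, 64, 64, 5, 6, 6, 6, 66, 67, 70, 69, 71, 65, 65] = true := by
  decide +kernel

theorem ok_p31_2 : stepOKDR rows1 prio1 cap p31_2 lay32
    [68, 70, 70, 69, 71, 71] = true := by
  decide +kernel

theorem ok_p32_0 : stepOKDR rows1 prio1 cap p32_0 lay33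
    [0, 0, 3, 2, 5, 64, 4, 4, 1, 1, 6, 6] = true := by
  decide +kernel

theorem ok_p32_1 : stepOKDR rows1 prio1 cap p32_1 lay33
    [64, 7, 4, 6, 66, 68, 67, 71, 69, 70, 65, 69, 70, 65, 71] = true := by
  decide +kernel

theorem ok_p33_0 : stepOKDR rows1 prio1 cap p33_0 lay34
    [0, 0, 3, 2, 7, 5, 4, 1, 6, 4, 1, 6] = true := by
  decide +kernel

theorem ok_p33_1 : stepOKDR rows1 prio1 cap p33_1 lay34
    [64, 66, 68, 69, 67, 68, 69, 65] = true := by
  decide +kernel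

theorem ok_p34_0 : stepOKDR rows1 prio1 cap p34_0 lay35
    [0, 2, 6, 4, 3, 3, 1, 5] = true := by
  decide +kernel

theorem ok_p34_1 : stepOKDR rows1 prio1 cap p34_1 lay35
    [7, 64, 65, 66, 67, 68, 64, 67, 68] = true := by
  decide +kernel

theorem ok_p35_0 : stepOKDR rows1 prio1 cap p35_0 lay36
    [0, 1, 5, 6, 1, 5, 4, 2, 1, 7, 5, 3, 1, 5, 3] = true := by
  decide +kernel

theorem ok_p35_1 : stepOKDR rows1 prio1 cap p35_1 lay36
    [66, 65, 67, 64, 64] = true := by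
  decide +kernel

theorem ok_p36_0 : stepOKDR rows1 prio1 cap p36_0 lay37
    [0, 2, 3, 1, 0, 2, 0, 2, 0, 2] = true := by
  decide +kernel

theorem ok_p36_1 : stepOKDR rows1 prio1 cap p36_1 lay37
    [6, 4, 5] = true := by
  decide +kernel

theorem ok_p37_0 : stepOKDR rows2 prio2 cap p37_0 lay38
    [0, 3, 1, 2, 3, 3] = true := by
  decide +kernel

theorem ok_p38_0 : stepOKDR rows2 prio2 cap p38_0 lay39
    [0, 1, 1, 2, 3, 4, 5] = true := by
  decide +kernel

theorem ok_p39_0 : stepOKDR rows2 prio2 cap p39_0 lay40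
    [0, 0, 1, 2, 3, 4, 3, 4, 5, 6, 3] = true := by
  decide +kernel

theorem ok_p40_0 : stepOKDR rows2 prio2 cap p40_0 lay41
    [0, 1, 2, 1, 2, 3, 4, 5, 5, 6, 7, 8, 1] = true := by
  decide +kernel

theorem ok_p41_0 : stepOKDR rows2 prio2 cap p41_0 lay42
    [0, 1, 2, 2, 3, 4, 5, 7, 8, 8, 8, 6, 64, 65, 8, 66, 8] = true := by
  decide +kernel

end Vale.Agent.Lib.P302.helper9.Th431
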