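import Mathlib
import Vale.Agent.Lib.P302.helper9.Th431.Base
import Vale.Agent.Lib.P302.helper9.Th431.K3

/-!
# P302: chunks of the mask search of the 431-item instance (part 6)
-/

namespace Vale.Agent.Lib.P302.helper9.Th431

open Vale.Agent.Lib.P302.helper14 Vale.Agent.Lib.P302.helper8 Vale.Agent.Lib.P302.helper9

theorem ok_p42_0 : stepOKDR rows2 prio2 cap p42_0 lay43
    [0, 1, 2, 2, 2, 3, 4, 2, 5, 2, 6, 7, 6, 8, 65, 66, 64] = true := by
  decide +kernel

theorem ok_p42_1 : stepOKDR rows2 prio2 cap p42_1 lay43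
    [65, 67, 67, 67, 69, 68] = true := by
  decide +kernel

theorem ok_p43_0 : stepOKDR rows2 prio2 cap p43_0 lay44
    [0, 1, 0, 2, 3, 4, 3, 5, 5, 5, 7, 6, 66, 65, 65, 67, 68] = true := by
  decide +kernel

theorem ok_p43_1 : stepOKDR rows2 prio2 cap p43_1 lay44
    [8, 67, 68, 67, 64, 65, 69, 65] = true := by
  decide +kernel

theorem ok_p44_0 : stepOKDR rows2 prio2 cap p44_0 lay45
    [0, 2, 1, 1, 3, 3, 4, 4, 3, 1, 5, 1, 6] = true := by
  decide +kernel

theorem ok_p44_1 : stepOKDR rows2 prio2 cap p44_1 lay45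
    [6, 8, 65, 64, 65, 8, 7] = true := by
  decide +kernel

theorem ok_p45_0 : stepOKDR rows2 prio2 cap p45_0 lay46
    [0, 1, 3, 2, 3, 1, 4, 6, 5, 7, 4, 6, 5, 5, 7] = true := by
  decide +kernel

theorem ok_p45_1 : stepOKDR rows2 prio2 cap p45_1 lay46
    [4, 4, 6, 6, 5, 7, 5, 7] = true := by
  decide +kernel

theorem ok_p46_0 : stepOKDR rows2 prio2 cap p46_0 lay47
    [0, 1, 2, 0, 0, 0, 1, 1, 1, 2, 2, 2, 3, 5, 4, 6, 7, 4] = true := by
  decide +kernel

theorem ok_p47_0 : stepOKDR rows2 prio2 cap p47_0 lay48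
    [0, 1, 2, 3, 4, 5, 7, 6, 8, 7, 7] = true := by
  decide +kernel

theorem ok_p48_0 : stepOKDR rows2 prio2 cap p48_0 lay49
    [0, 1, 2, 3, 4, 6, 5, 7, 8, 64, 65] = true := by
  decide +kernel

theorem ok_p49_0 : stepOKDR rows2 prio2 cap p49_0 lay50
    [0, 1, 2, 3, 4, 5, 6, 8, 7, 64, 65] = true := by
  decide +kernel

theorem ok_p49_1 : stepOKDR rows2 prio2 cap p49_1 lay50
    [6, 8] = true := by
  decide +kernel

theorem ok_p50_0 : stepOKDR rows2 prio2 cap p50_0 lay51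
    [0, 1, 0, 1, 2, 3, 4, 5, 6, 8, 7, 8, 8] = true := by
  decide +kernel

theorem ok_p50_1 : stepOKDR rows2 prio2 cap p50_1 lay51
    [6, 7] = true := by
  decide +kernel

theorem ok_p51_0 : stepOKDR rows3 prio3 cap p51_0 lay52
    [0, 1, 2, 2, 3, 3, 4, 5, 6, 7, 6] = true := by
  decide +kernel

theorem ok_p52_0 : stepOKDR rows3 prio3 cap p52_0 lay53
    [0, 1, 2, 1, 6, 3, 4, 5, 6] = true := by
  decide +kernel

theorem ok_p53_0 : stepOKDR rows3 prio3 cap p53_0 lay54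
    [2, 0, 1, 2, 3, 4, 4, 5] = true := by
  decide +kernel

theorem ok_p54_0 : stepOKDR rows3 prio3 cap p54_0 lay55
    [0, 1, 1, 3, 2, 2] = true := by
  decide +kernel

theorem ok_p55_0 : stepOKDR rows3 prio3 cap p55_0 lay56
    [0, 1, 2, 3] = true := by
  decide +kernel

theorem ok_p56_0 : stepOKDR rows3 prio3 cap p56_0 lay57
    [0, 1, 3, 3, 4, 2, 3] = true := by
  decide +kernel

theorem ok_p57_0 : stepOKDR rows3 prio3 cap p57_0 lay58
    [0, 0, 1, 0, 3, 4, 3, 2] = true := by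
  decide +kernel

theorem ok_p58_0 : stepOKDR rows3 prio3 cap p58_0 lay59
    [0, 1, 0, 2, 3, 5, 5, 4] = true := by
  decide +kernel

theorem ok_p59_0 : stepOKDR rows3 prio3 cap p59_0 lay60
    [0, 1, 2, 2, 3, 3, 5, 5, 4, 4, 4, 6, 7, 4] = true := by
  decide +kernel

theorem ok_p60_0 : stepOKDR rows3 prio3 cap p60_0 lay61
    [0, 0, 1, 1, 2, 3, 4, 5, 4, 6, 5, 5, 7] = true := by
  decide +kernel

end Vale.Agent.Lib.P302.helper9.Th431
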