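import Mathlib
import Vale.Agent.Lib.P302.helper9.Th431.Base
import Vale.Agent.Lib.P302.helper9.Th431.K4

/-!
# P302: chunks of the mask search of the 431-item instance (part 7)
-/

namespace Vale.Agent.Lib.P302.helper9.Th431

open Vale.Agent.Lib.P302.helper14 Vale.Agent.Lib.P302.helper8 Vale.Agent.Lib.P302.helper9

theorem ok_p61_0 : stepOKDR rows3 prio3 cap p61_0 lay62
    [0, 0, 1, 2, 3, 4, 5, 6, 6] = true := by
  decide +kernel

theorem ok_p62_0 : stepOKDR rows3 prio3 cap p62_0 lay63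
    [0, 1, 2, 2, 3, 5, 4, 5] = true := by
  decide +kernel

theorem ok_p63_0 : stepOKDR rows4 prio4 cap p63_0 lay64
    [0, 1, 1, 2, 3, 3] = true := by
  decide +kernel

theorem ok_p64_0 : stepOKDR rows4 prio4 cap p64_0 lay65
    [0, 1, 2] = true := by
  decide +kernel

theorem ok_p65_0 : stepOKDR rows4 prio4 cap p65_0 lay66
    [0, 1, 2, 3] = true := by
  decide +kernel

theorem ok_p66_0 : stepOKDR rows4 prio4 cap p66_0 lay67
    [0, 1, 2, 2, 3] = true := by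
  decide +kernel

theorem ok_p67_0 : stepOKDR rows4 prio4 cap p67_0 lay68
    [0, 0, 1, 2, 2] = true := by
  decide +kernel

theorem ok_p68_0 : stepOKDR rows4 prio4 cap p68_0 lay69
    [0, 1, 1] = true := by
  decide +kernel

theorem ok_p69_0 : stepOKDR rows4 prio4 cap p69_0 lay70
    [0, 1] = true := by
  decide +kernel

theorem ok_p70_0 : stepOKDR rows4 prio4 cap p70_0 lay71
    [0, 1] = true := by
  decide +kernel

theorem ok_p71_0 : stepOKDR rows4 prio4 cap p71_0 lay72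
    [0] = true := by
  decide +kernel

theorem ok_p72_0 : stepOKDR rows5 prio5 cap p72_0 lay73
    [0, 1] = true := by
  decide +kernel

theorem ok_p73_0 : stepOKDR rows5 prio5 cap p73_0 lay74
    [0, 0, 1, 2, 3] = true := by
  decide +kernel

theorem ok_p74_0 : stepOKDR rows5 prio5 cap p74_0 lay75
    [0, 1, 0, 0, 0, 2, 3, 4, 3, 5] = true := by
  decide +kernel

theorem ok_p75_0 : stepOKDR rows5 prio5 cap p75_0 lay76
    [0, 1, 1, 2, 1, 1, 2, 2, 2, 3, 4, 4, 5, 5, 5] = true := by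
  decide +kernel

theorem ok_p76_0 : stepOKDR rows5 prio5 cap p76_0 lay77
    [0, 3, 2, 1, 3, 3, 4, 3, 3, 5, 6, 7] = true := by
  decide +kernel

theorem ok_p77_0 : stepOKDR rows5 prio5 cap p77_0 lay78
    [1, 1, 0, 7, 3, 3, 2, 4, 4, 5, 6, 7, 5, 8, 9, 10] = true := by
  decide +kernel

theorem ok_p78_0 : stepOKDR rows5 prio5 cap p78_0 lay79
    [0, 0, 1, 1, 3, 2, 5, 4, 4, 4, 0, 6, 5, 5, 5, 7, 8, 7] = true := by
  decide +kernel

theorem ok_p79_0 : stepOKDR rows5 prio5 cap p79_0 lay80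
    [0, 2, 1, 2, 1, 3, 4, 4, 5, 6, 4, 2] = true := by
  decide +kernel

theorem ok_p80_0 : stepOKDR rows5 prio5 cap p80_0 lay81
    [0, 2, 1, 3, 4, 5, 6, 10, 10, 7, 9, 8, 10, 8] = true := by
  decide +kernel

theorem ok_p81_0 : stepOKDR rows5 prio5 cap p81_0 lay82
    [0, 1, 2, 3, 4, 4, 4, 4, 5, 5, 6, 6, 7, 7, 8, 8, 5, 5, 5, 5,
     6, 6, 7, 7, 8, 8, 6, 7, 8, 6, 7, 8, 9, 10, 11, 9, 9, 9, 10, 10,
     10, 11, 11, 11] = true := by
  decide +kernel

theorem ok_p82_0 : stepOKDR rows5 prio5 cap p82_0 lay83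
    [0, 2, 3, 4, 5, 6, 7, 8, 1, 2, 3, 4, 5, 6, 7, 8, 9, 10, 11, 12] = true := by
  decide +kernel

theorem ok_p83_0 : stepOKDR rows6 prio6 cap p83_0 lay84
    [0, 1, 2, 3, 5, 4, 6, 7, 8, 9, 10, 11, 12, 13, 14, 15] = true := by
  decide +kernel

theorem ok_p84_0 : stepOKDR rows6 prio6 cap p84_0 lay85
    [0, 2, 1, 3, 4, 5, 6, 7, 8, 9, 10, 11, 12, 13, 14, 15, 64, 65, 66] = true := by
  decide +kernel

theorem ok_p85_0 : stepOKDR rows6 prio6 cap p85_0 lay86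
    [0, 2, 3, 1, 2, 4, 8, 9, 10, 11, 12, 13, 14, 15, 64, 65, 66, 67, 65, 67] = true := by
  decide +kernel

theorem ok_p85_1 : stepOKDR rows6 prio6 cap p85_1 lay86
    [5, 6, 7] = true := by
  decide +kernel

theorem ok_p86_0 : stepOKDR rows6 prio6 cap p86_0 lay87
    [0, 1, 1, 3, 2, 3, 2, 4, 5, 6, 7, 8, 9, 10, 11, 6, 8, 10, 11] = true := by
  decide +kernel

theorem ok_p86_1 : stepOKDR rows6 prio6 cap p86_1 lay87
    [1, 3, 12, 13, 14, 14, 15, 15] = true := by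
  decide +kernel

theorem ok_p87_0 : stepOKDR rows6 prio6 cap p87_0 lay88
    [2, 1, 0, 2, 3, 4, 5, 6, 7, 7, 8, 9, 8, 9, 10, 10, 11, 13, 12, 13] = true := by
  decide +kernel

theorem ok_p88_0 : stepOKDR rows6 prio6 cap p88_0 lay89
    [1, 0, 2, 2, 3, 4, 5, 9, 6, 7, 8, 9, 10, 11, 12, 11, 10] = true := by
  decide +kernel

end Vale.Agent.Lib.P302.helper9.Th431
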