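import Mathlib
import Vale.Agent.Lib.P302.helper9.Th431.Base
import Vale.Agent.Lib.P302.helper9.Th431.K5

/-!
# P302: chunks of the mask search of the 431-item instance (part 8)
-/

namespace Vale.Agent.Lib.P302.helper9.Th431

open Vale.Agent.Lib.P302.helper14 Vale.Agent.Lib.P302.helper8 Vale.Agent.Lib.P302.helper9

theorem ok_p89_0 : stepOKDR rows6 prio6 cap p89_0 lay90
    [0, 2, 1, 3, 4, 5, 6, 7, 8, 9, 5, 6, 3, 10, 10, 11] = true := by
  decide +kernel

theorem ok_p90_0 : stepOKDR rows6 prio6 cap p90_0 lay91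
    [0, 2, 1, 3, 3, 4, 4, 5, 3, 4, 3, 4, 6] = true := by
  decide +kernel

theorem ok_p91_0 : stepOKDR rows7 prio7 cap p91_0 lay92
    [0, 0, 0, 1, 2, 3] = true := by
  decide +kernel

theorem ok_p92_0 : stepOKDR rows7 prio7 cap p92_0 lay93
    [0, 1, 2, 3, 4, 3] = true := by
  decide +kernel

theorem ok_p93_0 : stepOKDR rows7 prio7 cap p93_0 lay94
    [0, 1, 2, 1, 3, 4, 4] = true := by
  decide +kernel

theorem ok_p94_0 : stepOKDR rows7 prio7 cap p94_0 lay95
    [0, 0, 1, 0, 2, 2, 3, 3, 4, 5, 4, 5] = true := by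
  decide +kernel

theorem ok_p95_0 : stepOKDR rows7 prio7 cap p95_0 lay96
    [0, 0, 1, 1, 2, 3, 2, 3, 4, 5, 6, 7] = true := by
  decide +kernel

theorem ok_p96_0 : stepOKDR rows7 prio7 cap p96_0 lay97
    [2, 0, 1, 2, 2, 3, 4, 5, 6, 6, 7] = true := by
  decide +kernel

theorem ok_p97_0 : stepOKDR rows7 prio7 cap p97_0 lay98
    [0, 1, 2, 2, 3, 4, 5, 5, 6] = true := by
  decide +kernel

theorem ok_p98_0 : stepOKDR rows7 prio7 cap p98_0 lay99
    [0, 1, 2, 2, 3, 4, 4, 5] = true := by
  decide +kernel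

theorem ok_p99_0 : stepOKDR rows8 prio8 cap p99_0 lay100
    [0, 0, 1, 1, 2, 3] = true := by
  decide +kernel

theorem ok_p100_0 : stepOKDR rows8 prio8 cap p100_0 lay101
    [0, 1, 2] = true := by
  decide +kernel

theorem ok_p101_0 : stepOKDR rows8 prio8 cap p101_0 lay102
    [1, 0, 1, 2] = true := by
  decide +kernel

theorem ok_p102_0 : stepOKDR rows8 prio8 cap p102_0 lay103
    [0, 1, 2, 3, 4] = true := by
  decide +kernel

theorem ok_p103_0 : stepOKDR rows8 prio8 cap p103_0 lay104
    [0, 0, 1, 2, 2] = true := by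
  decide +kernel

theorem ok_p104_0 : stepOKDR rows9 prio9 cap p104_0 lay105
    [1, 0, 1] = true := by
  decide +kernel

theorem ok_p105_0 : stepOKDR rows9 prio9 cap p105_0 lay106
    [0, 1] = true := by
  decide +kernel

theorem ok_p106_0 : stepOKDR rows9 prio9 cap p106_0 lay107
    [0, 1] = true := by
  decide +kernel

theorem ok_p107_0 : stepOKDR rows9 prio9 cap p107_0 lay108
    [0] = true := by
  decide +kernel

theorem ok_p108_0 : stepOKDR rows10 prio10 cap p108_0 lay109
    [0, 1] = true := by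
  decide +kernel

theorem ok_p109_0 : stepOKDR rows10 prio10 cap p109_0 lay110
    [0, 1, 0, 2] = true := by
  decide +kernel

theorem ok_p110_0 : stepOKDR rows10 prio10 cap p110_0 lay111
    [0, 1, 0, 2, 2, 2] = true := by
  decide +kernel

theorem ok_p111_0 : stepOKDR rows10 prio10 cap p111_0 lay112
    [1, 0, 1, 2, 3, 4] = true := by
  decide +kernel

theorem ok_p112_0 : stepOKDR rows10 prio10 cap p112_0 lay113
    [0, 0, 1, 1, 1, 2, 3, 3, 4, 5] = true := by
  decide +kernel

theorem ok_p113_0 : stepOKDR rows10 prio10 cap p113_0 lay114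
    [0, 1, 1, 1, 1, 2, 3, 4, 5, 6, 7, 7, 7, 8, 8] = true := by
  decide +kernel

theorem ok_p114_0 : stepOKDR rows10 prio10 cap p114_0 lay115
    [0, 0, 1, 1, 1, 2, 2, 2, 2, 3, 3, 4, 3, 4] = true := by
  decide +kernel

theorem ok_p115_0 : stepOKDR rows11 prio11 cap p115_0 lay116
    [1, 0, 0, 0, 2, 3] = true := by
  decide +kernel

theorem ok_p116_0 : stepOKDR rows11 prio11 cap p116_0 lay117
    [0, 0, 0, 0, 1, 1, 2, 2, 1, 2, 1, 2] = true := by
  decide +kernel

theorem ok_p117_0 : stepOKDR rows11 prio11 cap p117_0 lay118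
    [0, 1, 2, 3] = true := by
  decide +kernel

theorem ok_p118_0 : stepOKDR rows12 prio12 cap p118_0 lay119
    [0, 1, 2] = true := by
  decide +kernel

theorem ok_p119_0 : stepOKDR rows12 prio12 cap p119_0 lay120
    [0, 1, 2, 3] = true := by
  decide +kernel

theorem ok_p120_0 : stepOKDR rows12 prio12 cap p120_0 lay121
    [1, 1, 0, 2, 3] = true := by
  decide +kernel

theorem ok_p121_0 : stepOKDR rows12 prio12 cap p121_0 lay122
    [1, 0, 0, 2, 2] = true := by
  decide +kernel

theorem ok_p122_0 : stepOKDR rows13 prio13 cap p122_0 lay123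
    [0, 0, 1] = true := by
  decide +kernel

theorem ok_p123_0 : stepOKDR rows13 prio13 cap p123_0 lay124
    [0, 1] = true := by
  decide +kernel

theorem ok_p124_0 : stepOKDR rows13 prio13 cap p124_0 lay125
    [0, 1] = true := by
  decide +kernel

theorem ok_p125_0 : stepOKDR rows14 prio14 cap p125_0 lay126
    [0] = true := by
  decide +kernel

theorem ok_p126_0 : stepOKDR rows15 prio15 cap p126_0 lay127
    [0, 1] = true := by
  decide +kernel

theorem ok_p127_0 : stepOKDR rows15 prio15 cap p127_0 lay128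
    [0, 0, 0, 1] = true := by
  decide +kernel

theorem ok_p128_0 : stepOKDR rows15 prio15 cap p128_0 lay129
    [0, 1, 0] = true := by
  decide +kernel

theorem ok_p129_0 : stepOKDR rows16 prio16 cap p129_0 lay130
    [0, 1, 1, 2] = true := by
  decide +kernel

theorem ok_p130_0 : stepOKDR rows16 prio16 cap p130_0 lay131
    [0, 1, 2, 3, 0, 1] = true := by
  decide +kernel

theorem ok_p131_0 : stepOKDR rows16 prio16 cap p131_0 lay132
    [0, 1, 1] = true := by
  decide +kernel

theorem ok_p132_0 : stepOKDR rows17 prio17 cap p132_0 lay133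
    [0, 1] = true := by
  decide +kernel

theorem ok_p133_0 : stepOKDR rows17 prio17 cap p133_0 lay134
    [0, 1] = true := by
  decide +kernel

theorem ok_p134_0 : stepOKDR rows18 prio18 cap p134_0 lay135
    [0] = true := by
  decide +kernel

theorem ok_p135_0 : stepOKDR rows19 prio19 cap p135_0 lay136
    [0] = true := by
  decide +kernel

theorem ok_p136_0 : stepOKDR rows20 prio20 cap p136_0 lay137
    [0, 1] = true := by
  decide +kernel

theorem ok_p137_0 : stepOKDR rows20 prio20 cap p137_0 lay138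
    [0, 0] = true := by
  decide +kernel

theorem ok_p138_0 : stepOKDR rows21 prio21 cap p138_0 lay139
    [0] = true := by
  decide +kernel

theorem ok_p139_0 : stepOKDR rows22 prio22 cap p139_0 lay140
    [0] = true := by
  decide +kernel

theorem ok_p140_0 : stepOKDR rows23 prio23 cap p140_0 lay141
    [] = true := by
  decide +kernel

end Vale.Agent.Lib.P302.helper9.Th431
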