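import Mathlib
import Vale.Agent.Lib.P302.helper9.Th431.K0
import Vale.Agent.Lib.P302.helper9.Th431.K1
import Vale.Agent.Lib.P302.helper9.Th431.K2
import Vale.Agent.Lib.P302.helper9.Th431.K3
import Vale.Agent.Lib.P302.helper9.Th431.K4
import Vale.Agent.Lib.P302.helper9.Th431.K5
import Vale.Agent.Lib.P302.helper9.Th431.K6
import Vale.Agent.Lib.P302.helper9.Th431.K7
import Vale.Agent.Lib.P302.helper9.Th431.K8

/-!
# P302: the mask search of the 431-item instance, put together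

No state of any layer can be split into triples of total size at most `cap`.
-/

namespace Vale.Agent.Lib.P302.helper9.Th431

open Vale.Agent.Lib.P302.helper14 Vale.Agent.Lib.P302.helper8 Vale.Agent.Lib.P302.helper9

theorem no141 : ∀ p ∈ lay141, ∀ m ∈ p, ¬ TriPart cap (szs (sel rows23 m)) :=
  nil_no2 _ cap

theorem no140 : ∀ p ∈ lay140, ∀ m ∈ p, ¬ TriPart cap (szs (sel rows23 m)) :=
  cons_no2 (stepOKDR_sound rows_ok23 ok_p140_0 no141)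
    (nil_no2 _ cap)

theorem no140r : ∀ p ∈ lay140, ∀ m ∈ p, ¬ TriPart cap (szs (sel rows22 m)) :=
  restrict_no2 seg23 ins23 no140

theorem no139 : ∀ p ∈ lay139, ∀ m ∈ p, ¬ TriPart cap (szs (sel rows22 m)) :=
  cons_no2 (stepOKDR_sound rows_ok22 ok_p139_0 no140r)
    (nil_no2 _ cap)

theorem no139r : ∀ p ∈ lay139, ∀ m ∈ p, ¬ TriPart cap (szs (sel rows21 m)) :=
  restrict_no2 seg22 ins22 no139

theorem no138 : ∀ p ∈ lay138, ∀ m ∈ p, ¬ TriPart cap (szs (sel rows21 m)) :=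
  cons_no2 (stepOKDR_sound rows_ok21 ok_p138_0 no139r)
    (nil_no2 _ cap)

theorem no138r : ∀ p ∈ lay138, ∀ m ∈ p, ¬ TriPart cap (szs (sel rows20 m)) :=
  restrict_no2 seg21 ins21 no138

theorem no137 : ∀ p ∈ lay137, ∀ m ∈ p, ¬ TriPart cap (szs (sel rows20 m)) :=
  cons_no2 (stepOKDR_sound rows_ok20 ok_p137_0 no138r)
    (nil_no2 _ cap)

theorem no136 : ∀ p ∈ lay136, ∀ m ∈ p, ¬ TriPart cap (szs (sel rows20 m)) :=
  cons_no2 (stepOKDR_sound rows_ok20 ok_p136_0 no137)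
    (nil_no2 _ cap)

theorem no136r : ∀ p ∈ lay136, ∀ m ∈ p, ¬ TriPart cap (szs (sel rows19 m)) :=
  restrict_no2 seg20 ins20 no136

theorem no135 : ∀ p ∈ lay135, ∀ m ∈ p, ¬ TriPart cap (szs (sel rows19 m)) :=
  cons_no2 (stepOKDR_sound rows_ok19 ok_p135_0 no136r)
    (nil_no2 _ cap)

theorem no135r : ∀ p ∈ lay135, ∀ m ∈ p, ¬ TriPart cap (szs (sel rows18 m)) :=
  restrict_no2 seg19 ins19 no135

theorem no134 : ∀ p ∈ lay134, ∀ m ∈ p, ¬ TriPart cap (szs (sel rows18 m)) :=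
  cons_no2 (stepOKDR_sound rows_ok18 ok_p134_0 no135r)
    (nil_no2 _ cap)

theorem no134r : ∀ p ∈ lay134, ∀ m ∈ p, ¬ TriPart cap (szs (sel rows17 m)) :=
  restrict_no2 seg18 ins18 no134

theorem no133 : ∀ p ∈ lay133, ∀ m ∈ p, ¬ TriPart cap (szs (sel rows17 m)) :=
  cons_no2 (stepOKDR_sound rows_ok17 ok_p133_0 no134r)
    (nil_no2 _ cap)

theorem no132 : ∀ p ∈ lay132, ∀ m ∈ p, ¬ TriPart cap (szs (sel rows17 m)) :=
  cons_no2 (stepOKDR_sound rows_ok17 ok_p132_0 no133)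
    (nil_no2 _ cap)

theorem no132r : ∀ p ∈ lay132, ∀ m ∈ p, ¬ TriPart cap (szs (sel rows16 m)) :=
  restrict_no2 seg17 ins17 no132

theorem no131 : ∀ p ∈ lay131, ∀ m ∈ p, ¬ TriPart cap (szs (sel rows16 m)) :=
  cons_no2 (stepOKDR_sound rows_ok16 ok_p131_0 no132r)
    (nil_no2 _ cap)

theorem no130 : ∀ p ∈ lay130, ∀ m ∈ p, ¬ TriPart cap (szs (sel rows16 m)) :=
  cons_no2 (stepOKDR_sound rows_ok16 ok_p130_0 no131)
    (nil_no2 _ cap)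

theorem no129 : ∀ p ∈ lay129, ∀ m ∈ p, ¬ TriPart cap (szs (sel rows16 m)) :=
  cons_no2 (stepOKDR_sound rows_ok16 ok_p129_0 no130)
    (nil_no2 _ cap)

theorem no129r : ∀ p ∈ lay129, ∀ m ∈ p, ¬ TriPart cap (szs (sel rows15 m)) :=
  restrict_no2 seg16 ins16 no129

theorem no128 : ∀ p ∈ lay128, ∀ m ∈ p, ¬ TriPart cap (szs (sel rows15 m)) :=
  cons_no2 (stepOKDR_sound rows_ok15 ok_p128_0 no129r)
    (nil_no2 _ cap)

theorem no127 : ∀ p ∈ lay127, ∀ m ∈ p, ¬ TriPart cap (szs (sel rows15 m)) :=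
  cons_no2 (stepOKDR_sound rows_ok15 ok_p127_0 no128)
    (nil_no2 _ cap)

theorem no126 : ∀ p ∈ lay126, ∀ m ∈ p, ¬ TriPart cap (szs (sel rows15 m)) :=
  cons_no2 (stepOKDR_sound rows_ok15 ok_p126_0 no127)
    (nil_no2 _ cap)

theorem no126r : ∀ p ∈ lay126, ∀ m ∈ p, ¬ TriPart cap (szs (sel rows14 m)) :=
  restrict_no2 seg15 ins15 no126

theorem no125 : ∀ p ∈ lay125, ∀ m ∈ p, ¬ TriPart cap (szs (sel rows14 m)) :=
  cons_no2 (stepOKDR_sound rows_ok14 ok_p125_0 no126r)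
    (nil_no2 _ cap)

theorem no125r : ∀ p ∈ lay125, ∀ m ∈ p, ¬ TriPart cap (szs (sel rows13 m)) :=
  restrict_no2 seg14 ins14 no125

theorem no124 : ∀ p ∈ lay124, ∀ m ∈ p, ¬ TriPart cap (szs (sel rows13 m)) :=
  cons_no2 (stepOKDR_sound rows_ok13 ok_p124_0 no125r)
    (nil_no2 _ cap)

theorem no123 : ∀ p ∈ lay123, ∀ m ∈ p, ¬ TriPart cap (szs (sel rows13 m)) :=
  cons_no2 (stepOKDR_sound rows_ok13 ok_p123_0 no124)
    (nil_no2 _ cap)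

theorem no122 : ∀ p ∈ lay122, ∀ m ∈ p, ¬ TriPart cap (szs (sel rows13 m)) :=
  cons_no2 (stepOKDR_sound rows_ok13 ok_p122_0 no123)
    (nil_no2 _ cap)

theorem no122r : ∀ p ∈ lay122, ∀ m ∈ p, ¬ TriPart cap (szs (sel rows12 m)) :=
  restrict_no2 seg13 ins13 no122

theorem no121 : ∀ p ∈ lay121, ∀ m ∈ p, ¬ TriPart cap (szs (sel rows12 m)) :=
  cons_no2 (stepOKDR_sound rows_ok12 ok_p121_0 no122r)
    (nil_no2 _ cap)

theorem no120 : ∀ p ∈ lay120, ∀ m ∈ p, ¬ TriPart cap (szs (sel rows12 m)) :=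
  cons_no2 (stepOKDR_sound rows_ok12 ok_p120_0 no121)
    (nil_no2 _ cap)

theorem no119 : ∀ p ∈ lay119, ∀ m ∈ p, ¬ TriPart cap (szs (sel rows12 m)) :=
  cons_no2 (stepOKDR_sound rows_ok12 ok_p119_0 no120)
    (nil_no2 _ cap)

theorem no118 : ∀ p ∈ lay118, ∀ m ∈ p, ¬ TriPart cap (szs (sel rows12 m)) :=
  cons_no2 (stepOKDR_sound rows_ok12 ok_p118_0 no119)
    (nil_no2 _ cap)

theorem no118r : ∀ p ∈ lay118, ∀ m ∈ p, ¬ TriPart cap (szs (sel rows11 m)) :=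
  restrict_no2 seg12 ins12 no118

theorem no117 : ∀ p ∈ lay117, ∀ m ∈ p, ¬ TriPart cap (szs (sel rows11 m)) :=
  cons_no2 (stepOKDR_sound rows_ok11 ok_p117_0 no118r)
    (nil_no2 _ cap)

theorem no116 : ∀ p ∈ lay116, ∀ m ∈ p, ¬ TriPart cap (szs (sel rows11 m)) :=
  cons_no2 (stepOKDR_sound rows_ok11 ok_p116_0 no117)
    (nil_no2 _ cap)

theorem no115 : ∀ p ∈ lay115, ∀ m ∈ p, ¬ TriPart cap (szs (sel rows11 m)) :=
  cons_no2 (stepOKDR_sound rows_ok11 ok_p115_0 no116)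
    (nil_no2 _ cap)

theorem no115r : ∀ p ∈ lay115, ∀ m ∈ p, ¬ TriPart cap (szs (sel rows10 m)) :=
  restrict_no2 seg11 ins11 no115

theorem no114 : ∀ p ∈ lay114, ∀ m ∈ p, ¬ TriPart cap (szs (sel rows10 m)) :=
  cons_no2 (stepOKDR_sound rows_ok10 ok_p114_0 no115r)
    (nil_no2 _ cap)

theorem no113 : ∀ p ∈ lay113, ∀ m ∈ p, ¬ TriPart cap (szs (sel rows10 m)) :=
  cons_no2 (stepOKDR_sound rows_ok10 ok_p113_0 no114)
    (nil_no2 _ cap)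

theorem no112 : ∀ p ∈ lay112, ∀ m ∈ p, ¬ TriPart cap (szs (sel rows10 m)) :=
  cons_no2 (stepOKDR_sound rows_ok10 ok_p112_0 no113)
    (nil_no2 _ cap)

theorem no111 : ∀ p ∈ lay111, ∀ m ∈ p, ¬ TriPart cap (szs (sel rows10 m)) :=
  cons_no2 (stepOKDR_sound rows_ok10 ok_p111_0 no112)
    (nil_no2 _ cap)

theorem no110 : ∀ p ∈ lay110, ∀ m ∈ p, ¬ TriPart cap (szs (sel rows10 m)) :=
  cons_no2 (stepOKDR_sound rows_ok10 ok_p110_0 no111)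
    (nil_no2 _ cap)

theorem no109 : ∀ p ∈ lay109, ∀ m ∈ p, ¬ TriPart cap (szs (sel rows10 m)) :=
  cons_no2 (stepOKDR_sound rows_ok10 ok_p109_0 no110)
    (nil_no2 _ cap)

theorem no108 : ∀ p ∈ lay108, ∀ m ∈ p, ¬ TriPart cap (szs (sel rows10 m)) :=
  cons_no2 (stepOKDR_sound rows_ok10 ok_p108_0 no109)
    (nil_no2 _ cap)

theorem no108r : ∀ p ∈ lay108, ∀ m ∈ p, ¬ TriPart cap (szs (sel rows9 m)) :=
  restrict_no2 seg10 ins10 no108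

theorem no107 : ∀ p ∈ lay107, ∀ m ∈ p, ¬ TriPart cap (szs (sel rows9 m)) :=
  cons_no2 (stepOKDR_sound rows_ok9 ok_p107_0 no108r)
    (nil_no2 _ cap)

theorem no106 : ∀ p ∈ lay106, ∀ m ∈ p, ¬ TriPart cap (szs (sel rows9 m)) :=
  cons_no2 (stepOKDR_sound rows_ok9 ok_p106_0 no107)
    (nil_no2 _ cap)

theorem no105 : ∀ p ∈ lay105, ∀ m ∈ p, ¬ TriPart cap (szs (sel rows9 m)) :=
  cons_no2 (stepOKDR_sound rows_ok9 ok_p105_0 no106)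
    (nil_no2 _ cap)

theorem no104 : ∀ p ∈ lay104, ∀ m ∈ p, ¬ TriPart cap (szs (sel rows9 m)) :=
  cons_no2 (stepOKDR_sound rows_ok9 ok_p104_0 no105)
    (nil_no2 _ cap)

theorem no104r : ∀ p ∈ lay104, ∀ m ∈ p, ¬ TriPart cap (szs (sel rows8 m)) :=
  restrict_no2 seg9 ins9 no104

theorem no103 : ∀ p ∈ lay103, ∀ m ∈ p, ¬ TriPart cap (szs (sel rows8 m)) :=
  cons_no2 (stepOKDR_sound rows_ok8 ok_p103_0 no104r)
    (nil_no2 _ cap)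

theorem no102 : ∀ p ∈ lay102, ∀ m ∈ p, ¬ TriPart cap (szs (sel rows8 m)) :=
  cons_no2 (stepOKDR_sound rows_ok8 ok_p102_0 no103)
    (nil_no2 _ cap)

theorem no101 : ∀ p ∈ lay101, ∀ m ∈ p, ¬ TriPart cap (szs (sel rows8 m)) :=
  cons_no2 (stepOKDR_sound rows_ok8 ok_p101_0 no102)
    (nil_no2 _ cap)

theorem no100 : ∀ p ∈ lay100, ∀ m ∈ p, ¬ TriPart cap (szs (sel rows8 m)) :=
  cons_no2 (stepOKDR_sound rows_ok8 ok_p100_0 no101)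
    (nil_no2 _ cap)

theorem no99 : ∀ p ∈ lay99, ∀ m ∈ p, ¬ TriPart cap (szs (sel rows8 m)) :=
  cons_no2 (stepOKDR_sound rows_ok8 ok_p99_0 no100)
    (nil_no2 _ cap)

theorem no99r : ∀ p ∈ lay99, ∀ m ∈ p, ¬ TriPart cap (szs (sel rows7 m)) :=
  restrict_no2 seg8 ins8 no99

theorem no98 : ∀ p ∈ lay98, ∀ m ∈ p, ¬ TriPart cap (szs (sel rows7 m)) :=
  cons_no2 (stepOKDR_sound rows_ok7 ok_p98_0 no99r)
    (nil_no2 _ cap)

theorem no97 : ∀ p ∈ lay97, ∀ m ∈ p, ¬ TriPart cap (szs (sel rows7 m)) :=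
  cons_no2 (stepOKDR_sound rows_ok7 ok_p97_0 no98)
    (nil_no2 _ cap)

theorem no96 : ∀ p ∈ lay96, ∀ m ∈ p, ¬ TriPart cap (szs (sel rows7 m)) :=
  cons_no2 (stepOKDR_sound rows_ok7 ok_p96_0 no97)
    (nil_no2 _ cap)

theorem no95 : ∀ p ∈ lay95, ∀ m ∈ p, ¬ TriPart cap (szs (sel rows7 m)) :=
  cons_no2 (stepOKDR_sound rows_ok7 ok_p95_0 no96)
    (nil_no2 _ cap)

theorem no94 : ∀ p ∈ lay94, ∀ m ∈ p, ¬ TriPart cap (szs (sel rows7 m)) :=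
  cons_no2 (stepOKDR_sound rows_ok7 ok_p94_0 no95)
    (nil_no2 _ cap)

theorem no93 : ∀ p ∈ lay93, ∀ m ∈ p, ¬ TriPart cap (szs (sel rows7 m)) :=
  cons_no2 (stepOKDR_sound rows_ok7 ok_p93_0 no94)
    (nil_no2 _ cap)

theorem no92 : ∀ p ∈ lay92, ∀ m ∈ p, ¬ TriPart cap (szs (sel rows7 m)) :=
  cons_no2 (stepOKDR_sound rows_ok7 ok_p92_0 no93)
    (nil_no2 _ cap)

theorem no91 : ∀ p ∈ lay91, ∀ m ∈ p, ¬ TriPart cap (szs (sel rows7 m)) :=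
  cons_no2 (stepOKDR_sound rows_ok7 ok_p91_0 no92)
    (nil_no2 _ cap)

theorem no91r : ∀ p ∈ lay91, ∀ m ∈ p, ¬ TriPart cap (szs (sel rows6 m)) :=
  restrict_no2 seg7 ins7 no91

theorem no90 : ∀ p ∈ lay90, ∀ m ∈ p, ¬ TriPart cap (szs (sel rows6 m)) :=
  cons_no2 (stepOKDR_sound rows_ok6 ok_p90_0 no91r)
    (nil_no2 _ cap)

theorem no89 : ∀ p ∈ lay89, ∀ m ∈ p, ¬ TriPart cap (szs (sel rows6 m)) :=
  cons_no2 (stepOKDR_sound rows_ok6 ok_p89_0 no90)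
    (nil_no2 _ cap)

theorem no88 : ∀ p ∈ lay88, ∀ m ∈ p, ¬ TriPart cap (szs (sel rows6 m)) :=
  cons_no2 (stepOKDR_sound rows_ok6 ok_p88_0 no89)
    (nil_no2 _ cap)

theorem no87 : ∀ p ∈ lay87, ∀ m ∈ p, ¬ TriPart cap (szs (sel rows6 m)) :=
  cons_no2 (stepOKDR_sound rows_ok6 ok_p87_0 no88)
    (nil_no2 _ cap)

theorem no86 : ∀ p ∈ lay86, ∀ m ∈ p, ¬ TriPart cap (szs (sel rows6 m)) :=
  cons_no2 (stepOKDR_sound rows_ok6 ok_p86_0 no87)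
    (cons_no2 (stepOKDR_sound rows_ok6 ok_p86_1 no87)
    (nil_no2 _ cap))

theorem no85 : ∀ p ∈ lay85, ∀ m ∈ p, ¬ TriPart cap (szs (sel rows6 m)) :=
  cons_no2 (stepOKDR_sound rows_ok6 ok_p85_0 no86)
    (cons_no2 (stepOKDR_sound rows_ok6 ok_p85_1 no86)
    (nil_no2 _ cap))

theorem no84 : ∀ p ∈ lay84, ∀ m ∈ p, ¬ TriPart cap (szs (sel rows6 m)) :=
  cons_no2 (stepOKDR_sound rows_ok6 ok_p84_0 no85)
    (nil_no2 _ cap)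

theorem no83 : ∀ p ∈ lay83, ∀ m ∈ p, ¬ TriPart cap (szs (sel rows6 m)) :=
  cons_no2 (stepOKDR_sound rows_ok6 ok_p83_0 no84)
    (nil_no2 _ cap)

theorem no83r : ∀ p ∈ lay83, ∀ m ∈ p, ¬ TriPart cap (szs (sel rows5 m)) :=
  restrict_no2 seg6 ins6 no83

theorem no82 : ∀ p ∈ lay82, ∀ m ∈ p, ¬ TriPart cap (szs (sel rows5 m)) :=
  cons_no2 (stepOKDR_sound rows_ok5 ok_p82_0 no83r)
    (nil_no2 _ cap)

theorem no81 : ∀ p ∈ lay81, ∀ m ∈ p, ¬ TriPart cap (szs (sel rows5 m)) :=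
  cons_no2 (stepOKDR_sound rows_ok5 ok_p81_0 no82)
    (nil_no2 _ cap)

theorem no80 : ∀ p ∈ lay80, ∀ m ∈ p, ¬ TriPart cap (szs (sel rows5 m)) :=
  cons_no2 (stepOKDR_sound rows_ok5 ok_p80_0 no81)
    (nil_no2 _ cap)

theorem no79 : ∀ p ∈ lay79, ∀ m ∈ p, ¬ TriPart cap (szs (sel rows5 m)) :=
  cons_no2 (stepOKDR_sound rows_ok5 ok_p79_0 no80)
    (nil_no2 _ cap)

theorem no78 : ∀ p ∈ lay78, ∀ m ∈ p, ¬ TriPart cap (szs (sel rows5 m)) :=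
  cons_no2 (stepOKDR_sound rows_ok5 ok_p78_0 no79)
    (nil_no2 _ cap)

theorem no77 : ∀ p ∈ lay77, ∀ m ∈ p, ¬ TriPart cap (szs (sel rows5 m)) :=
  cons_no2 (stepOKDR_sound rows_ok5 ok_p77_0 no78)
    (nil_no2 _ cap)

theorem no76 : ∀ p ∈ lay76, ∀ m ∈ p, ¬ TriPart cap (szs (sel rows5 m)) :=
  cons_no2 (stepOKDR_sound rows_ok5 ok_p76_0 no77)
    (nil_no2 _ cap)

theorem no75 : ∀ p ∈ lay75, ∀ m ∈ p, ¬ TriPart cap (szs (sel rows5 m)) :=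
  cons_no2 (stepOKDR_sound rows_ok5 ok_p75_0 no76)
    (nil_no2 _ cap)

theorem no74 : ∀ p ∈ lay74, ∀ m ∈ p, ¬ TriPart cap (szs (sel rows5 m)) :=
  cons_no2 (stepOKDR_sound rows_ok5 ok_p74_0 no75)
    (nil_no2 _ cap)

theorem no73 : ∀ p ∈ lay73, ∀ m ∈ p, ¬ TriPart cap (szs (sel rows5 m)) :=
  cons_no2 (stepOKDR_sound rows_ok5 ok_p73_0 no74)
    (nil_no2 _ cap)

theorem no72 : ∀ p ∈ lay72, ∀ m ∈ p, ¬ TriPart cap (szs (sel rows5 m)) :=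
  cons_no2 (stepOKDR_sound rows_ok5 ok_p72_0 no73)
    (nil_no2 _ cap)

theorem no72r : ∀ p ∈ lay72, ∀ m ∈ p, ¬ TriPart cap (szs (sel rows4 m)) :=
  restrict_no2 seg5 ins5 no72

theorem no71 : ∀ p ∈ lay71, ∀ m ∈ p, ¬ TriPart cap (szs (sel rows4 m)) :=
  cons_no2 (stepOKDR_sound rows_ok4 ok_p71_0 no72r)
    (nil_no2 _ cap)

theorem no70 : ∀ p ∈ lay70, ∀ m ∈ p, ¬ TriPart cap (szs (sel rows4 m)) :=
  cons_no2 (stepOKDR_sound rows_ok4 ok_p70_0 no71)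
    (nil_no2 _ cap)

theorem no69 : ∀ p ∈ lay69, ∀ m ∈ p, ¬ TriPart cap (szs (sel rows4 m)) :=
  cons_no2 (stepOKDR_sound rows_ok4 ok_p69_0 no70)
    (nil_no2 _ cap)

theorem no68 : ∀ p ∈ lay68, ∀ m ∈ p, ¬ TriPart cap (szs (sel rows4 m)) :=
  cons_no2 (stepOKDR_sound rows_ok4 ok_p68_0 no69)
    (nil_no2 _ cap)

theorem no67 : ∀ p ∈ lay67, ∀ m ∈ p, ¬ TriPart cap (szs (sel rows4 m)) :=
  cons_no2 (stepOKDR_sound rows_ok4 ok_p67_0 no68)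
    (nil_no2 _ cap)

theorem no66 : ∀ p ∈ lay66, ∀ m ∈ p, ¬ TriPart cap (szs (sel rows4 m)) :=
  cons_no2 (stepOKDR_sound rows_ok4 ok_p66_0 no67)
    (nil_no2 _ cap)

theorem no65 : ∀ p ∈ lay65, ∀ m ∈ p, ¬ TriPart cap (szs (sel rows4 m)) :=
  cons_no2 (stepOKDR_sound rows_ok4 ok_p65_0 no66)
    (nil_no2 _ cap)

theorem no64 : ∀ p ∈ lay64, ∀ m ∈ p, ¬ TriPart cap (szs (sel rows4 m)) :=
  cons_no2 (stepOKDR_sound rows_ok4 ok_p64_0 no65)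
    (nil_no2 _ cap)

theorem no63 : ∀ p ∈ lay63, ∀ m ∈ p, ¬ TriPart cap (szs (sel rows4 m)) :=
  cons_no2 (stepOKDR_sound rows_ok4 ok_p63_0 no64)
    (nil_no2 _ cap)

theorem no63r : ∀ p ∈ lay63, ∀ m ∈ p, ¬ TriPart cap (szs (sel rows3 m)) :=
  restrict_no2 seg4 ins4 no63

theorem no62 : ∀ p ∈ lay62, ∀ m ∈ p, ¬ TriPart cap (szs (sel rows3 m)) :=
  cons_no2 (stepOKDR_sound rows_ok3 ok_p62_0 no63r)
    (nil_no2 _ cap)

theorem no61 : ∀ p ∈ lay61, ∀ m ∈ p, ¬ TriPart cap (szs (sel rows3 m)) :=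
  cons_no2 (stepOKDR_sound rows_ok3 ok_p61_0 no62)
    (nil_no2 _ cap)

theorem no60 : ∀ p ∈ lay60, ∀ m ∈ p, ¬ TriPart cap (szs (sel rows3 m)) :=
  cons_no2 (stepOKDR_sound rows_ok3 ok_p60_0 no61)
    (nil_no2 _ cap)

theorem no59 : ∀ p ∈ lay59, ∀ m ∈ p, ¬ TriPart cap (szs (sel rows3 m)) :=
  cons_no2 (stepOKDR_sound rows_ok3 ok_p59_0 no60)
    (nil_no2 _ cap)

theorem no58 : ∀ p ∈ lay58, ∀ m ∈ p, ¬ TriPart cap (szs (sel rows3 m)) :=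
  cons_no2 (stepOKDR_sound rows_ok3 ok_p58_0 no59)
    (nil_no2 _ cap)

theorem no57 : ∀ p ∈ lay57, ∀ m ∈ p, ¬ TriPart cap (szs (sel rows3 m)) :=
  cons_no2 (stepOKDR_sound rows_ok3 ok_p57_0 no58)
    (nil_no2 _ cap)

theorem no56 : ∀ p ∈ lay56, ∀ m ∈ p, ¬ TriPart cap (szs (sel rows3 m)) :=
  cons_no2 (stepOKDR_sound rows_ok3 ok_p56_0 no57)
    (nil_no2 _ cap)

theorem no55 : ∀ p ∈ lay55, ∀ m ∈ p, ¬ TriPart cap (szs (sel rows3 m)) :=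
  cons_no2 (stepOKDR_sound rows_ok3 ok_p55_0 no56)
    (nil_no2 _ cap)

theorem no54 : ∀ p ∈ lay54, ∀ m ∈ p, ¬ TriPart cap (szs (sel rows3 m)) :=
  cons_no2 (stepOKDR_sound rows_ok3 ok_p54_0 no55)
    (nil_no2 _ cap)

theorem no53 : ∀ p ∈ lay53, ∀ m ∈ p, ¬ TriPart cap (szs (sel rows3 m)) :=
  cons_no2 (stepOKDR_sound rows_ok3 ok_p53_0 no54)
    (nil_no2 _ cap)

theorem no52 : ∀ p ∈ lay52, ∀ m ∈ p, ¬ TriPart cap (szs (sel rows3 m)) :=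
  cons_no2 (stepOKDR_sound rows_ok3 ok_p52_0 no53)
    (nil_no2 _ cap)

theorem no51 : ∀ p ∈ lay51, ∀ m ∈ p, ¬ TriPart cap (szs (sel rows3 m)) :=
  cons_no2 (stepOKDR_sound rows_ok3 ok_p51_0 no52)
    (nil_no2 _ cap)

theorem no51r : ∀ p ∈ lay51, ∀ m ∈ p, ¬ TriPart cap (szs (sel rows2 m)) :=
  restrict_no2 seg3 ins3 no51

theorem no50 : ∀ p ∈ lay50, ∀ m ∈ p, ¬ TriPart cap (szs (sel rows2 m)) :=
  cons_no2 (stepOKDR_sound rows_ok2 ok_p50_0 no51r)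
    (cons_no2 (stepOKDR_sound rows_ok2 ok_p50_1 no51r)
    (nil_no2 _ cap))

theorem no49 : ∀ p ∈ lay49, ∀ m ∈ p, ¬ TriPart cap (szs (sel rows2 m)) :=
  cons_no2 (stepOKDR_sound rows_ok2 ok_p49_0 no50)
    (cons_no2 (stepOKDR_sound rows_ok2 ok_p49_1 no50)
    (nil_no2 _ cap))

theorem no48 : ∀ p ∈ lay48, ∀ m ∈ p, ¬ TriPart cap (szs (sel rows2 m)) :=
  cons_no2 (stepOKDR_sound rows_ok2 ok_p48_0 no49)
    (nil_no2 _ cap)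

theorem no47 : ∀ p ∈ lay47, ∀ m ∈ p, ¬ TriPart cap (szs (sel rows2 m)) :=
  cons_no2 (stepOKDR_sound rows_ok2 ok_p47_0 no48)
    (nil_no2 _ cap)

theorem no46 : ∀ p ∈ lay46, ∀ m ∈ p, ¬ TriPart cap (szs (sel rows2 m)) :=
  cons_no2 (stepOKDR_sound rows_ok2 ok_p46_0 no47)
    (nil_no2 _ cap)

theorem no45 : ∀ p ∈ lay45, ∀ m ∈ p, ¬ TriPart cap (szs (sel rows2 m)) :=
  cons_no2 (stepOKDR_sound rows_ok2 ok_p45_0 no46)
    (cons_no2 (stepOKDR_sound rows_ok2 ok_p45_1 no46)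
    (nil_no2 _ cap))

theorem no44 : ∀ p ∈ lay44, ∀ m ∈ p, ¬ TriPart cap (szs (sel rows2 m)) :=
  cons_no2 (stepOKDR_sound rows_ok2 ok_p44_0 no45)
    (cons_no2 (stepOKDR_sound rows_ok2 ok_p44_1 no45)
    (nil_no2 _ cap))

theorem no43 : ∀ p ∈ lay43, ∀ m ∈ p, ¬ TriPart cap (szs (sel rows2 m)) :=
  cons_no2 (stepOKDR_sound rows_ok2 ok_p43_0 no44)
    (cons_no2 (stepOKDR_sound rows_ok2 ok_p43_1 no44)
    (nil_no2 _ cap))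

theorem no42 : ∀ p ∈ lay42, ∀ m ∈ p, ¬ TriPart cap (szs (sel rows2 m)) :=
  cons_no2 (stepOKDR_sound rows_ok2 ok_p42_0 no43)
    (cons_no2 (stepOKDR_sound rows_ok2 ok_p42_1 no43)
    (nil_no2 _ cap))

theorem no41 : ∀ p ∈ lay41, ∀ m ∈ p, ¬ TriPart cap (szs (sel rows2 m)) :=
  cons_no2 (stepOKDR_sound rows_ok2 ok_p41_0 no42)
    (nil_no2 _ cap)

theorem no40 : ∀ p ∈ lay40, ∀ m ∈ p, ¬ TriPart cap (szs (sel rows2 m)) :=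
  cons_no2 (stepOKDR_sound rows_ok2 ok_p40_0 no41)
    (nil_no2 _ cap)

theorem no39 : ∀ p ∈ lay39, ∀ m ∈ p, ¬ TriPart cap (szs (sel rows2 m)) :=
  cons_no2 (stepOKDR_sound rows_ok2 ok_p39_0 no40)
    (nil_no2 _ cap)

theorem no38 : ∀ p ∈ lay38, ∀ m ∈ p, ¬ TriPart cap (szs (sel rows2 m)) :=
  cons_no2 (stepOKDR_sound rows_ok2 ok_p38_0 no39)
    (nil_no2 _ cap)

theorem no37 : ∀ p ∈ lay37, ∀ m ∈ p, ¬ TriPart cap (szs (sel rows2 m)) :=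
  cons_no2 (stepOKDR_sound rows_ok2 ok_p37_0 no38)
    (nil_no2 _ cap)

theorem no37r : ∀ p ∈ lay37, ∀ m ∈ p, ¬ TriPart cap (szs (sel rows1 m)) :=
  restrict_no2 seg2 ins2 no37

theorem no36 : ∀ p ∈ lay36, ∀ m ∈ p, ¬ TriPart cap (szs (sel rows1 m)) :=
  cons_no2 (stepOKDR_sound rows_ok1 ok_p36_0 no37r)
    (cons_no2 (stepOKDR_sound rows_ok1 ok_p36_1 no37r)
    (nil_no2 _ cap))

theorem no35 : ∀ p ∈ lay35, ∀ m ∈ p, ¬ TriPart cap (szs (sel rows1 m)) :=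
  cons_no2 (stepOKDR_sound rows_ok1 ok_p35_0 no36)
    (cons_no2 (stepOKDR_sound rows_ok1 ok_p35_1 no36)
    (nil_no2 _ cap))

theorem no34 : ∀ p ∈ lay34, ∀ m ∈ p, ¬ TriPart cap (szs (sel rows1 m)) :=
  cons_no2 (stepOKDR_sound rows_ok1 ok_p34_0 no35)
    (cons_no2 (stepOKDR_sound rows_ok1 ok_p34_1 no35)
    (nil_no2 _ cap))

theorem no33 : ∀ p ∈ lay33, ∀ m ∈ p, ¬ TriPart cap (szs (sel rows1 m)) :=
  cons_no2 (stepOKDR_sound rows_ok1 ok_p33_0 no34)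
    (cons_no2 (stepOKDR_sound rows_ok1 ok_p33_1 no34)
    (nil_no2 _ cap))

theorem no32 : ∀ p ∈ lay32, ∀ m ∈ p, ¬ TriPart cap (szs (sel rows1 m)) :=
  cons_no2 (stepOKDR_sound rows_ok1 ok_p32_0 no33)
    (cons_no2 (stepOKDR_sound rows_ok1 ok_p32_1 no33)
    (nil_no2 _ cap))

theorem no31 : ∀ p ∈ lay31, ∀ m ∈ p, ¬ TriPart cap (szs (sel rows1 m)) :=
  cons_no2 (stepOKDR_sound rows_ok1 ok_p31_0 no32)
    (cons_no2 (stepOKDR_sound rows_ok1 ok_p31_1 no32)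
    (cons_no2 (stepOKDR_sound rows_ok1 ok_p31_2 no32)
    (nil_no2 _ cap)))

theorem no30 : ∀ p ∈ lay30, ∀ m ∈ p, ¬ TriPart cap (szs (sel rows1 m)) :=
  cons_no2 (stepOKDR_sound rows_ok1 ok_p30_0 no31)
    (cons_no2 (stepOKDR_sound rows_ok1 ok_p30_1 no31)
    (cons_no2 (stepOKDR_sound rows_ok1 ok_p30_2 no31)
    (nil_no2 _ cap)))

theorem no29 : ∀ p ∈ lay29, ∀ m ∈ p, ¬ TriPart cap (szs (sel rows1 m)) :=
  cons_no2 (stepOKDR_sound rows_ok1 ok_p29_0 no30)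
    (cons_no2 (stepOKDR_sound rows_ok1 ok_p29_1 no30)
    (nil_no2 _ cap))

theorem no28 : ∀ p ∈ lay28, ∀ m ∈ p, ¬ TriPart cap (szs (sel rows1 m)) :=
  cons_no2 (stepOKDR_sound rows_ok1 ok_p28_0 no29)
    (cons_no2 (stepOKDR_sound rows_ok1 ok_p28_1 no29)
    (cons_no2 (stepOKDR_sound rows_ok1 ok_p28_2 no29)
    (nil_no2 _ cap)))

theorem no27 : ∀ p ∈ lay27, ∀ m ∈ p, ¬ TriPart cap (szs (sel rows1 m)) :=
  cons_no2 (stepOKDR_sound rows_ok1 ok_p27_0 no28)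
    (cons_no2 (stepOKDR_sound rows_ok1 ok_p27_1 no28)
    (cons_no2 (stepOKDR_sound rows_ok1 ok_p27_2 no28)
    (cons_no2 (stepOKDR_sound rows_ok1 ok_p27_3 no28)
    (cons_no2 (stepOKDR_sound rows_ok1 ok_p27_4 no28)
    (nil_no2 _ cap)))))

theorem no26 : ∀ p ∈ lay26, ∀ m ∈ p, ¬ TriPart cap (szs (sel rows1 m)) :=
  cons_no2 (stepOKDR_sound rows_ok1 ok_p26_0 no27)
    (cons_no2 (stepOKDR_sound rows_ok1 ok_p26_1 no27)
    (cons_no2 (stepOKDR_sound rows_ok1 ok_p26_2 no27)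
    (cons_no2 (stepOKDR_sound rows_ok1 ok_p26_3 no27)
    (cons_no2 (stepOKDR_sound rows_ok1 ok_p26_4 no27)
    (nil_no2 _ cap)))))

theorem no25 : ∀ p ∈ lay25, ∀ m ∈ p, ¬ TriPart cap (szs (sel rows1 m)) :=
  cons_no2 (stepOKDR_sound rows_ok1 ok_p25_0 no26)
    (cons_no2 (stepOKDR_sound rows_ok1 ok_p25_1 no26)
    (cons_no2 (stepOKDR_sound rows_ok1 ok_p25_2 no26)
    (cons_no2 (stepOKDR_sound rows_ok1 ok_p25_3 no26)
    (cons_no2 (stepOKDR_sound rows_ok1 ok_p25_4 no26)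
    (nil_no2 _ cap)))))

theorem no24 : ∀ p ∈ lay24, ∀ m ∈ p, ¬ TriPart cap (szs (sel rows1 m)) :=
  cons_no2 (stepOKDR_sound rows_ok1 ok_p24_0 no25)
    (cons_no2 (stepOKDR_sound rows_ok1 ok_p24_1 no25)
    (cons_no2 (stepOKDR_sound rows_ok1 ok_p24_2 no25)
    (cons_no2 (stepOKDR_sound rows_ok1 ok_p24_3 no25)
    (nil_no2 _ cap))))

theorem no23 : ∀ p ∈ lay23, ∀ m ∈ p, ¬ TriPart cap (szs (sel rows1 m)) :=
  cons_no2 (stepOKDR_sound rows_ok1 ok_p23_0 no24)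
    (cons_no2 (stepOKDR_sound rows_ok1 ok_p23_1 no24)
    (cons_no2 (stepOKDR_sound rows_ok1 ok_p23_2 no24)
    (nil_no2 _ cap)))

theorem no22 : ∀ p ∈ lay22, ∀ m ∈ p, ¬ TriPart cap (szs (sel rows1 m)) :=
  cons_no2 (stepOKDR_sound rows_ok1 ok_p22_0 no23)
    (cons_no2 (stepOKDR_sound rows_ok1 ok_p22_1 no23)
    (cons_no2 (stepOKDR_sound rows_ok1 ok_p22_2 no23)
    (nil_no2 _ cap)))

theorem no21 : ∀ p ∈ lay21, ∀ m ∈ p, ¬ TriPart cap (szs (sel rows1 m)) :=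
  cons_no2 (stepOKDR_sound rows_ok1 ok_p21_0 no22)
    (cons_no2 (stepOKDR_sound rows_ok1 ok_p21_1 no22)
    (cons_no2 (stepOKDR_sound rows_ok1 ok_p21_2 no22)
    (nil_no2 _ cap)))

theorem no20 : ∀ p ∈ lay20, ∀ m ∈ p, ¬ TriPart cap (szs (sel rows1 m)) :=
  cons_no2 (stepOKDR_sound rows_ok1 ok_p20_0 no21)
    (cons_no2 (stepOKDR_sound rows_ok1 ok_p20_1 no21)
    (nil_no2 _ cap))

theorem no20r : ∀ p ∈ lay20, ∀ m ∈ p, ¬ TriPart cap (szs (sel rows m)) :=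
  restrict_no2 seg1 ins1 no20

theorem no19 : ∀ p ∈ lay19, ∀ m ∈ p, ¬ TriPart cap (szs (sel rows m)) :=
  cons_no2 (stepOKDR_sound rows_ok0 ok_p19_0 no20r)
    (cons_no2 (stepOKDR_sound rows_ok0 ok_p19_1 no20r)
    (nil_no2 _ cap))

theorem no18 : ∀ p ∈ lay18, ∀ m ∈ p, ¬ TriPart cap (szs (sel rows m)) :=
  cons_no2 (stepOKDR_sound rows_ok0 ok_p18_0 no19)
    (cons_no2 (stepOKDR_sound rows_ok0 ok_p18_1 no19)
    (nil_no2 _ cap))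

theorem no17 : ∀ p ∈ lay17, ∀ m ∈ p, ¬ TriPart cap (szs (sel rows m)) :=
  cons_no2 (stepOKDR_sound rows_ok0 ok_p17_0 no18)
    (cons_no2 (stepOKDR_sound rows_ok0 ok_p17_1 no18)
    (nil_no2 _ cap))

theorem no16 : ∀ p ∈ lay16, ∀ m ∈ p, ¬ TriPart cap (szs (sel rows m)) :=
  cons_no2 (stepOKDR_sound rows_ok0 ok_p16_0 no17)
    (cons_no2 (stepOKDR_sound rows_ok0 ok_p16_1 no17)
    (cons_no2 (stepOKDR_sound rows_ok0 ok_p16_2 no17)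
    (nil_no2 _ cap)))

theorem no15 : ∀ p ∈ lay15, ∀ m ∈ p, ¬ TriPart cap (szs (sel rows m)) :=
  cons_no2 (stepOKDR_sound rows_ok0 ok_p15_0 no16)
    (cons_no2 (stepOKDR_sound rows_ok0 ok_p15_1 no16)
    (cons_no2 (stepOKDR_sound rows_ok0 ok_p15_2 no16)
    (cons_no2 (stepOKDR_sound rows_ok0 ok_p15_3 no16)
    (cons_no2 (stepOKDR_sound rows_ok0 ok_p15_4 no16)
    (cons_no2 (stepOKDR_sound rows_ok0 ok_p15_5 no16)
    (nil_no2 _ cap))))))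

theorem no14 : ∀ p ∈ lay14, ∀ m ∈ p, ¬ TriPart cap (szs (sel rows m)) :=
  cons_no2 (stepOKDR_sound rows_ok0 ok_p14_0 no15)
    (cons_no2 (stepOKDR_sound rows_ok0 ok_p14_1 no15)
    (cons_no2 (stepOKDR_sound rows_ok0 ok_p14_2 no15)
    (cons_no2 (stepOKDR_sound rows_ok0 ok_p14_3 no15)
    (cons_no2 (stepOKDR_sound rows_ok0 ok_p14_4 no15)
    (cons_no2 (stepOKDR_sound rows_ok0 ok_p14_5 no15)
    (nil_no2 _ cap))))))

theorem no13 : ∀ p ∈ lay13, ∀ m ∈ p, ¬ TriPart cap (szs (sel rows m)) :=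
  cons_no2 (stepOKDR_sound rows_ok0 ok_p13_0 no14)
    (cons_no2 (stepOKDR_sound rows_ok0 ok_p13_1 no14)
    (cons_no2 (stepOKDR_sound rows_ok0 ok_p13_2 no14)
    (cons_no2 (stepOKDR_sound rows_ok0 ok_p13_3 no14)
    (cons_no2 (stepOKDR_sound rows_ok0 ok_p13_4 no14)
    (nil_no2 _ cap)))))

theorem no12 : ∀ p ∈ lay12, ∀ m ∈ p, ¬ TriPart cap (szs (sel rows m)) :=
  cons_no2 (stepOKDR_sound rows_ok0 ok_p12_0 no13)
    (cons_no2 (stepOKDR_sound rows_ok0 ok_p12_1 no13)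
    (cons_no2 (stepOKDR_sound rows_ok0 ok_p12_2 no13)
    (cons_no2 (stepOKDR_sound rows_ok0 ok_p12_3 no13)
    (cons_no2 (stepOKDR_sound rows_ok0 ok_p12_4 no13)
    (nil_no2 _ cap)))))

theorem no11 : ∀ p ∈ lay11, ∀ m ∈ p, ¬ TriPart cap (szs (sel rows m)) :=
  cons_no2 (stepOKDR_sound rows_ok0 ok_p11_0 no12)
    (cons_no2 (stepOKDR_sound rows_ok0 ok_p11_1 no12)
    (cons_no2 (stepOKDR_sound rows_ok0 ok_p11_2 no12)
    (cons_no2 (stepOKDR_sound rows_ok0 ok_p11_3 no12)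
    (nil_no2 _ cap))))

theorem no10 : ∀ p ∈ lay10, ∀ m ∈ p, ¬ TriPart cap (szs (sel rows m)) :=
  cons_no2 (stepOKDR_sound rows_ok0 ok_p10_0 no11)
    (cons_no2 (stepOKDR_sound rows_ok0 ok_p10_1 no11)
    (cons_no2 (stepOKDR_sound rows_ok0 ok_p10_2 no11)
    (cons_no2 (stepOKDR_sound rows_ok0 ok_p10_3 no11)
    (nil_no2 _ cap))))

theorem no9 : ∀ p ∈ lay9, ∀ m ∈ p, ¬ TriPart cap (szs (sel rows m)) :=
  cons_no2 (stepOKDR_sound rows_ok0 ok_p9_0 no10)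
    (cons_no2 (stepOKDR_sound rows_ok0 ok_p9_1 no10)
    (cons_no2 (stepOKDR_sound rows_ok0 ok_p9_2 no10)
    (nil_no2 _ cap)))

theorem no8 : ∀ p ∈ lay8, ∀ m ∈ p, ¬ TriPart cap (szs (sel rows m)) :=
  cons_no2 (stepOKDR_sound rows_ok0 ok_p8_0 no9)
    (cons_no2 (stepOKDR_sound rows_ok0 ok_p8_1 no9)
    (cons_no2 (stepOKDR_sound rows_ok0 ok_p8_2 no9)
    (nil_no2 _ cap)))

theorem no7 : ∀ p ∈ lay7, ∀ m ∈ p, ¬ TriPart cap (szs (sel rows m)) :=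
  cons_no2 (stepOKDR_sound rows_ok0 ok_p7_0 no8)
    (cons_no2 (stepOKDR_sound rows_ok0 ok_p7_1 no8)
    (cons_no2 (stepOKDR_sound rows_ok0 ok_p7_2 no8)
    (cons_no2 (stepOKDR_sound rows_ok0 ok_p7_3 no8)
    (nil_no2 _ cap))))

theorem no6 : ∀ p ∈ lay6, ∀ m ∈ p, ¬ TriPart cap (szs (sel rows m)) :=
  cons_no2 (stepOKDR_sound rows_ok0 ok_p6_0 no7)
    (cons_no2 (stepOKDR_sound rows_ok0 ok_p6_1 no7)
    (cons_no2 (stepOKDR_sound rows_ok0 ok_p6_2 no7)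
    (cons_no2 (stepOKDR_sound rows_ok0 ok_p6_3 no7)
    (nil_no2 _ cap))))

theorem no5 : ∀ p ∈ lay5, ∀ m ∈ p, ¬ TriPart cap (szs (sel rows m)) :=
  cons_no2 (stepOKDR_sound rows_ok0 ok_p5_0 no6)
    (cons_no2 (stepOKDR_sound rows_ok0 ok_p5_1 no6)
    (cons_no2 (stepOKDR_sound rows_ok0 ok_p5_2 no6)
    (nil_no2 _ cap)))

theorem no4 : ∀ p ∈ lay4, ∀ m ∈ p, ¬ TriPart cap (szs (sel rows m)) :=
  cons_no2 (stepOKDR_sound rows_ok0 ok_p4_0 no5)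
    (cons_no2 (stepOKDR_sound rows_ok0 ok_p4_1 no5)
    (cons_no2 (stepOKDR_sound rows_ok0 ok_p4_2 no5)
    (nil_no2 _ cap)))

theorem no3 : ∀ p ∈ lay3, ∀ m ∈ p, ¬ TriPart cap (szs (sel rows m)) :=
  cons_no2 (stepOKDR_sound rows_ok0 ok_p3_0 no4)
    (cons_no2 (stepOKDR_sound rows_ok0 ok_p3_1 no4)
    (nil_no2 _ cap))

theorem no2 : ∀ p ∈ lay2, ∀ m ∈ p, ¬ TriPart cap (szs (sel rows m)) :=
  cons_no2 (stepOKDR_sound rows_ok0 ok_p2_0 no3)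
    (cons_no2 (stepOKDR_sound rows_ok0 ok_p2_1 no3)
    (nil_no2 _ cap))

theorem no1 : ∀ p ∈ lay1, ∀ m ∈ p, ¬ TriPart cap (szs (sel rows m)) :=
  cons_no2 (stepOKDR_sound rows_ok0 ok_p1_0 no2)
    (nil_no2 _ cap)

theorem no0 : ∀ p ∈ lay0, ∀ m ∈ p, ¬ TriPart cap (szs (sel rows m)) :=
  cons_no2 (stepOKDR_sound rows_ok0 ok_p0_0 no1)
    (nil_no2 _ cap)

end Vale.Agent.Lib.P302.helper9.Th431
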