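import Mathlib
import Vale.Agent.Lib.P302.helper9.Th431.F0

/-!
# P302: the fractional solution of the 431-item instance, checked in pieces (part 1)
-/

namespace Vale.Agent.Lib.P302.helper9.Th431

open Vale.Agent.Lib.P302.helper14 Vale.Agent.Lib.P302.helper8 Vale.Agent.Lib.P302.helper9

theorem cfg_10 : (List.take 15 (List.drop 15 (List.drop 15 (List.drop 15 (List.drop 15 (List.drop 15 (List.drop 15 (List.drop 15 (List.drop 15 (List.drop 15 (List.drop 15 (frac)))))))))))).all (cfgOK sizes cap) = true := by
  decide +kernel

theorem cfg_11 : (List.take 15 (List.drop 15 (List.drop 15 (List.drop 15 (List.drop 15 (List.drop 15 (List.drop 15 (List.drop 15 (List.drop 15 (List.drop 15 (List.drop 15 (List.drop 15 (frac))))))))))))).all (cfgOK sizes cap) = true := by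
  decide +kernel

theorem cfg_12 : (List.take 15 (List.drop 15 (List.drop 15 (List.drop 15 (List.drop 15 (List.drop 15 (List.drop 15 (List.drop 15 (List.drop 15 (List.drop 15 (List.drop 15 (List.drop 15 (List.drop 15 (frac)))))))))))))).all (cfgOK sizes cap) = true := by
  decide +kernel

theorem cfg_13 : (List.take 15 (List.drop 15 (List.drop 15 (List.drop 15 (List.drop 15 (List.drop 15 (List.drop 15 (List.drop 15 (List.drop 15 (List.drop 15 (List.drop 15 (List.drop 15 (List.drop 15 (List.drop 15 (frac))))))))))))))).all (cfgOK sizes cap) = true := by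
  decide +kernel

theorem cfg_14 : (List.take 15 (List.drop 15 (List.drop 15 (List.drop 15 (List.drop 15 (List.drop 15 (List.drop 15 (List.drop 15 (List.drop 15 (List.drop 15 (List.drop 15 (List.drop 15 (List.drop 15 (List.drop 15 (List.drop 15 (frac)))))))))))))))).all (cfgOK sizes cap) = true := by
  decide +kernel

theorem cfg_15 : (List.take 15 (List.drop 15 (List.drop 15 (List.drop 15 (List.drop 15 (List.drop 15 (List.drop 15 (List.drop 15 (List.drop 15 (List.drop 15 (List.drop 15 (List.drop 15 (List.drop 15 (List.drop 15 (List.drop 15 (List.drop 15 (frac))))))))))))))))).all (cfgOK sizes cap) = true := by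
  decide +kernel

theorem cfg_16 : (List.take 15 (List.drop 15 (List.drop 15 (List.drop 15 (List.drop 15 (List.drop 15 (List.drop 15 (List.drop 15 (List.drop 15 (List.drop 15 (List.drop 15 (List.drop 15 (List.drop 15 (List.drop 15 (List.drop 15 (List.drop 15 (List.drop 15 (frac)))))))))))))))))).all (cfgOK sizes cap) = true := by
  decide +kernel

theorem cfg_17 : (List.take 15 (List.drop 15 (List.drop 15 (List.drop 15 (List.drop 15 (List.drop 15 (List.drop 15 (List.drop 15 (List.drop 15 (List.drop 15 (List.drop 15 (List.drop 15 (List.drop 15 (List.drop 15 (List.drop 15 (List.drop 15 (List.drop 15 (List.drop 15 (frac))))))))))))))))))).all (cfgOK sizes cap) = true := by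
  decide +kernel

theorem cfg_18 : (List.take 15 (List.drop 15 (List.drop 15 (List.drop 15 (List.drop 15 (List.drop 15 (List.drop 15 (List.drop 15 (List.drop 15 (List.drop 15 (List.drop 15 (List.drop 15 (List.drop 15 (List.drop 15 (List.drop 15 (List.drop 15 (List.drop 15 (List.drop 15 (List.drop 15 (frac)))))))))))))))))))).all (cfgOK sizes cap) = true := by
  decide +kernel

theorem cfg_19 : (List.take 15 (List.drop 15 (List.drop 15 (List.drop 15 (List.drop 15 (List.drop 15 (List.drop 15 (List.drop 15 (List.drop 15 (List.drop 15 (List.drop 15 (List.drop 15 (List.drop 15 (List.drop 15 (List.drop 15 (List.drop 15 (List.drop 15 (List.drop 15 (List.drop 15 (List.drop 15 (frac))))))))))))))))))))).all (cfgOK sizes cap) = true := by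
  decide +kernel

end Vale.Agent.Lib.P302.helper9.Th431
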