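import Mathlib
import Vale.Agent.Lib.P302.helper9.Th431.F1

/-!
# P302: the fractional solution of the 431-item instance, checked in pieces (part 2)
-/

namespace Vale.Agent.Lib.P302.helper9.Th431

open Vale.Agent.Lib.P302.helper14 Vale.Agent.Lib.P302.helper8 Vale.Agent.Lib.P302.helper9

theorem cfg_20 : (List.take 15 (List.drop 15 (List.drop 15 (List.drop 15 (List.drop 15 (List.drop 15 (List.drop 15 (List.drop 15 (List.drop 15 (List.drop 15 (List.drop 15 (List.drop 15 (List.drop 15 (List.drop 15 (List.drop 15 (List.drop 15 (List.drop 15 (List.drop 15 (List.drop 15 (List.drop 15 (List.drop 15 (frac)))))))))))))))))))))).all (cfgOK sizes cap) = true := by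
  decide +kernel

theorem cfg_21 : (List.take 15 (List.drop 15 (List.drop 15 (List.drop 15 (List.drop 15 (List.drop 15 (List.drop 15 (List.drop 15 (List.drop 15 (List.drop 15 (List.drop 15 (List.drop 15 (List.drop 15 (List.drop 15 (List.drop 15 (List.drop 15 (List.drop 15 (List.drop 15 (List.drop 15 (List.drop 15 (List.drop 15 (List.drop 15 (frac))))))))))))))))))))))).all (cfgOK sizes cap) = true := by
  decide +kernel

theorem cfg_22 : (List.drop 15 (List.drop 15 (List.drop 15 (List.drop 15 (List.drop 15 (List.drop 15 (List.drop 15 (List.drop 15 (List.drop 15 (List.drop 15 (List.drop 15 (List.drop 15 (List.drop 15 (List.drop 15 (List.drop 15 (List.drop 15 (List.drop 15 (List.drop 15 (List.drop 15 (List.drop 15 (List.drop 15 (List.drop 15 (frac))))))))))))))))))))))).all (cfgOK sizes cap) = true := by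
  decide +kernel

theorem cov_0 : (List.take 13 (sizes)).all (covOK sizes 5308416 frac) = true := by
  decide +kernel

theorem cov_1 : (List.take 13 (List.drop 13 (sizes))).all (covOK sizes 5308416 frac) = true := by
  decide +kernel

theorem cov_2 : (List.take 13 (List.drop 13 (List.drop 13 (sizes)))).all (covOK sizes 5308416 frac) = true := by
  decide +kernel

theorem cov_3 : (List.take 13 (List.drop 13 (List.drop 13 (List.drop 13 (sizes))))).all (covOK sizes 5308416 frac) = true := by
  decide +kernel

theorem cov_4 : (List.take 13 (List.drop 13 (List.drop 13 (List.drop 13 (List.drop 13 (sizes)))))).all (covOK sizes 5308416 frac) = true := by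
  decide +kernel

theorem cov_5 : (List.take 13 (List.drop 13 (List.drop 13 (List.drop 13 (List.drop 13 (List.drop 13 (sizes))))))).all (covOK sizes 5308416 frac) = true := by
  decide +kernel

theorem cov_6 : (List.take 13 (List.drop 13 (List.drop 13 (List.drop 13 (List.drop 13 (List.drop 13 (List.drop 13 (sizes)))))))).all (covOK sizes 5308416 frac) = true := by
  decide +kernel

end Vale.Agent.Lib.P302.helper9.Th431
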