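import Mathlib
import Vale.Agent.Lib.P302.helper9.Th431.F2

/-!
# P302: the fractional solution of the 431-item instance, checked in pieces (part 3)
-/

namespace Vale.Agent.Lib.P302.helper9.Th431

open Vale.Agent.Lib.P302.helper14 Vale.Agent.Lib.P302.helper8 Vale.Agent.Lib.P302.helper9

theorem cov_7 : (List.take 13 (List.drop 13 (List.drop 13 (List.drop 13 (List.drop 13 (List.drop 13 (List.drop 13 (List.drop 13 (sizes))))))))).all (covOK sizes 5308416 frac) = true := by
  decide +kernel

theorem cov_8 : (List.take 13 (List.drop 13 (List.drop 13 (List.drop 13 (List.drop 13 (List.drop 13 (List.drop 13 (List.drop 13 (List.drop 13 (sizes)))))))))).all (covOK sizes 5308416 frac) = true := by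
  decide +kernel

theorem cov_9 : (List.take 13 (List.drop 13 (List.drop 13 (List.drop 13 (List.drop 13 (List.drop 13 (List.drop 13 (List.drop 13 (List.drop 13 (List.drop 13 (sizes))))))))))).all (covOK sizes 5308416 frac) = true := by
  decide +kernel

theorem cov_10 : (List.take 13 (List.drop 13 (List.drop 13 (List.drop 13 (List.drop 13 (List.drop 13 (List.drop 13 (List.drop 13 (List.drop 13 (List.drop 13 (List.drop 13 (sizes)))))))))))).all (covOK sizes 5308416 frac) = true := by
  decide +kernel

theorem cov_11 : (List.take 13 (List.drop 13 (List.drop 13 (List.drop 13 (List.drop 13 (List.drop 13 (List.drop 13 (List.drop 13 (List.drop 13 (List.drop 13 (List.drop 13 (List.drop 13 (sizes))))))))))))).all (covOK sizes 5308416 frac) = true := by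
  decide +kernel

theorem cov_12 : (List.take 13 (List.drop 13 (List.drop 13 (List.drop 13 (List.drop 13 (List.drop 13 (List.drop 13 (List.drop 13 (List.drop 13 (List.drop 13 (List.drop 13 (List.drop 13 (List.drop 13 (sizes)))))))))))))).all (covOK sizes 5308416 frac) = true := by
  decide +kernel

theorem cov_13 : (List.take 13 (List.drop 13 (List.drop 13 (List.drop 13 (List.drop 13 (List.drop 13 (List.drop 13 (List.drop 13 (List.drop 13 (List.drop 13 (List.drop 13 (List.drop 13 (List.drop 13 (List.drop 13 (sizes))))))))))))))).all (covOK sizes 5308416 frac) = true := by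
  decide +kernel

theorem cov_14 : (List.take 13 (List.drop 13 (List.drop 13 (List.drop 13 (List.drop 13 (List.drop 13 (List.drop 13 (List.drop 13 (List.drop 13 (List.drop 13 (List.drop 13 (List.drop 13 (List.drop 13 (List.drop 13 (List.drop 13 (sizes)))))))))))))))).all (covOK sizes 5308416 frac) = true := by
  decide +kernel

theorem cov_15 : (List.take 13 (List.drop 13 (List.drop 13 (List.drop 13 (List.drop 13 (List.drop 13 (List.drop 13 (List.drop 13 (List.drop 13 (List.drop 13 (List.drop 13 (List.drop 13 (List.drop 13 (List.drop 13 (List.drop 13 (List.drop 13 (sizes))))))))))))))))).all (covOK sizes 5308416 frac) = true := by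
  decide +kernel

theorem cov_16 : (List.take 13 (List.drop 13 (List.drop 13 (List.drop 13 (List.drop 13 (List.drop 13 (List.drop 13 (List.drop 13 (List.drop 13 (List.drop 13 (List.drop 13 (List.drop 13 (List.drop 13 (List.drop 13 (List.drop 13 (List.drop 13 (List.drop 13 (sizes)))))))))))))))))).all (covOK sizes 5308416 frac) = true := by
  decide +kernel

end Vale.Agent.Lib.P302.helper9.Th431
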