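import Mathlib
import Vale.Agent.Lib.P302.helper9.Th431.F3

/-!
# P302: the fractional solution of the 431-item instance, checked in pieces (part 4)
-/

namespace Vale.Agent.Lib.P302.helper9.Th431

open Vale.Agent.Lib.P302.helper14 Vale.Agent.Lib.P302.helper8 Vale.Agent.Lib.P302.helper9

theorem cov_17 : (List.take 13 (List.drop 13 (List.drop 13 (List.drop 13 (List.drop 13 (List.drop 13 (List.drop 13 (List.drop 13 (List.drop 13 (List.drop 13 (List.drop 13 (List.drop 13 (List.drop 13 (List.drop 13 (List.drop 13 (List.drop 13 (List.drop 13 (List.drop 13 (sizes))))))))))))))))))).all (covOK sizes 5308416 frac) = true := by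
  decide +kernel

theorem cov_18 : (List.take 13 (List.drop 13 (List.drop 13 (List.drop 13 (List.drop 13 (List.drop 13 (List.drop 13 (List.drop 13 (List.drop 13 (List.drop 13 (List.drop 13 (List.drop 13 (List.drop 13 (List.drop 13 (List.drop 13 (List.drop 13 (List.drop 13 (List.drop 13 (List.drop 13 (sizes)))))))))))))))))))).all (covOK sizes 5308416 frac) = true := by
  decide +kernel

theorem cov_19 : (List.take 13 (List.drop 13 (List.drop 13 (List.drop 13 (List.drop 13 (List.drop 13 (List.drop 13 (List.drop 13 (List.drop 13 (List.drop 13 (List.drop 13 (List.drop 13 (List.drop 13 (List.drop 13 (List.drop 13 (List.drop 13 (List.drop 13 (List.drop 13 (List.drop 13 (List.drop 13 (sizes))))))))))))))))))))).all (covOK sizes 5308416 frac) = true := by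
  decide +kernel

theorem cov_20 : (List.take 13 (List.drop 13 (List.drop 13 (List.drop 13 (List.drop 13 (List.drop 13 (List.drop 13 (List.drop 13 (List.drop 13 (List.drop 13 (List.drop 13 (List.drop 13 (List.drop 13 (List.drop 13 (List.drop 13 (List.drop 13 (List.drop 13 (List.drop 13 (List.drop 13 (List.drop 13 (List.drop 13 (sizes)))))))))))))))))))))).all (covOK sizes 5308416 frac) = true := by
  decide +kernel

theorem cov_21 : (List.take 13 (List.drop 13 (List.drop 13 (List.drop 13 (List.drop 13 (List.drop 13 (List.drop 13 (List.drop 13 (List.drop 13 (List.drop 13 (List.drop 13 (List.drop 13 (List.drop 13 (List.drop 13 (List.drop 13 (List.drop 13 (List.drop 13 (List.drop 13 (List.drop 13 (List.drop 13 (List.drop 13 (List.drop 13 (sizes))))))))))))))))))))))).all (covOK sizes 5308416 frac) = true := by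
  decide +kernel

theorem cov_22 : (List.take 13 (List.drop 13 (List.drop 13 (List.drop 13 (List.drop 13 (List.drop 13 (List.drop 13 (List.drop 13 (List.drop 13 (List.drop 13 (List.drop 13 (List.drop 13 (List.drop 13 (List.drop 13 (List.drop 13 (List.drop 13 (List.drop 13 (List.drop 13 (List.drop 13 (List.drop 13 (List.drop 13 (List.drop 13 (List.drop 13 (sizes)))))))))))))))))))))))).all (covOK sizes 5308416 frac) = true := by
  decide +kernel

theorem cov_23 : (List.take 13 (List.drop 13 (List.drop 13 (List.drop 13 (List.drop 13 (List.drop 13 (List.drop 13 (List.drop 13 (List.drop 13 (List.drop 13 (List.drop 13 (List.drop 13 (List.drop 13 (List.drop 13 (List.drop 13 (List.drop 13 (List.drop 13 (List.drop 13 (List.drop 13 (List.drop 13 (List.drop 13 (List.drop 13 (List.drop 13 (List.drop 13 (sizes))))))))))))))))))))))))).all (covOK sizes 5308416 frac) = true := by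
  decide +kernel

theorem cov_24 : (List.take 13 (List.drop 13 (List.drop 13 (List.drop 13 (List.drop 13 (List.drop 13 (List.drop 13 (List.drop 13 (List.drop 13 (List.drop 13 (List.drop 13 (List.drop 13 (List.drop 13 (List.drop 13 (List.drop 13 (List.drop 13 (List.drop 13 (List.drop 13 (List.drop 13 (List.drop 13 (List.drop 13 (List.drop 13 (List.drop 13 (List.drop 13 (List.drop 13 (sizes)))))))))))))))))))))))))).all (covOK sizes 5308416 frac) = true := by
  decide +kernel

theorem cov_25 : (List.take 13 (List.drop 13 (List.drop 13 (List.drop 13 (List.drop 13 (List.drop 13 (List.drop 13 (List.drop 13 (List.drop 13 (List.drop 13 (List.drop 13 (List.drop 13 (List.drop 13 (List.drop 13 (List.drop 13 (List.drop 13 (List.drop 13 (List.drop 13 (List.drop 13 (List.drop 13 (List.drop 13 (List.drop 13 (List.drop 13 (List.drop 13 (List.drop 13 (List.drop 13 (sizes))))))))))))))))))))))))))).all (covOK sizes 5308416 frac) = true := by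
  decide +kernel

theorem cov_26 : (List.take 13 (List.drop 13 (List.drop 13 (List.drop 13 (List.drop 13 (List.drop 13 (List.drop 13 (List.drop 13 (List.drop 13 (List.drop 13 (List.drop 13 (List.drop 13 (List.drop 13 (List.drop 13 (List.drop 13 (List.drop 13 (List.drop 13 (List.drop 13 (List.drop 13 (List.drop 13 (List.drop 13 (List.drop 13 (List.drop 13 (List.drop 13 (List.drop 13 (List.drop 13 (List.drop 13 (sizes)))))))))))))))))))))))))))).all (covOK sizes 5308416 frac) = true := by
  decide +kernel

end Vale.Agent.Lib.P302.helper9.Th431
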