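import Mathlib
import Vale.Agent.Lib.P302.helper9.Th431.F4

/-!
# P302: the fractional solution of the 431-item instance, checked in pieces (part 5)
-/

namespace Vale.Agent.Lib.P302.helper9.Th431

open Vale.Agent.Lib.P302.helper14 Vale.Agent.Lib.P302.helper8 Vale.Agent.Lib.P302.helper9

theorem cov_27 : (List.take 13 (List.drop 13 (List.drop 13 (List.drop 13 (List.drop 13 (List.drop 13 (List.drop 13 (List.drop 13 (List.drop 13 (List.drop 13 (List.drop 13 (List.drop 13 (List.drop 13 (List.drop 13 (List.drop 13 (List.drop 13 (List.drop 13 (List.drop 13 (List.drop 13 (List.drop 13 (List.drop 13 (List.drop 13 (List.drop 13 (List.drop 13 (List.drop 13 (List.drop 13 (List.drop 13 (List.drop 13 (sizes))))))))))))))))))))))))))))).all (covOK sizes 5308416 frac) = true := by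
  decide +kernel

theorem cov_28 : (List.take 13 (List.drop 13 (List.drop 13 (List.drop 13 (List.drop 13 (List.drop 13 (List.drop 13 (List.drop 13 (List.drop 13 (List.drop 13 (List.drop 13 (List.drop 13 (List.drop 13 (List.drop 13 (List.drop 13 (List.drop 13 (List.drop 13 (List.drop 13 (List.drop 13 (List.drop 13 (List.drop 13 (List.drop 13 (List.drop 13 (List.drop 13 (List.drop 13 (List.drop 13 (List.drop 13 (List.drop 13 (List.drop 13 (sizes)))))))))))))))))))))))))))))).all (covOK sizes 5308416 frac) = true := by
  decide +kernel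

theorem cov_29 : (List.take 13 (List.drop 13 (List.drop 13 (List.drop 13 (List.drop 13 (List.drop 13 (List.drop 13 (List.drop 13 (List.drop 13 (List.drop 13 (List.drop 13 (List.drop 13 (List.drop 13 (List.drop 13 (List.drop 13 (List.drop 13 (List.drop 13 (List.drop 13 (List.drop 13 (List.drop 13 (List.drop 13 (List.drop 13 (List.drop 13 (List.drop 13 (List.drop 13 (List.drop 13 (List.drop 13 (List.drop 13 (List.drop 13 (List.drop 13 (sizes))))))))))))))))))))))))))))))).all (covOK sizes 5308416 frac) = true := by
  decide +kernel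

theorem cov_30 : (List.take 13 (List.drop 13 (List.drop 13 (List.drop 13 (List.drop 13 (List.drop 13 (List.drop 13 (List.drop 13 (List.drop 13 (List.drop 13 (List.drop 13 (List.drop 13 (List.drop 13 (List.drop 13 (List.drop 13 (List.drop 13 (List.drop 13 (List.drop 13 (List.drop 13 (List.drop 13 (List.drop 13 (List.drop 13 (List.drop 13 (List.drop 13 (List.drop 13 (List.drop 13 (List.drop 13 (List.drop 13 (List.drop 13 (List.drop 13 (List.drop 13 (sizes)))))))))))))))))))))))))))))))).all (covOK sizes 5308416 frac) = true := by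
  decide +kernel

theorem cov_31 : (List.take 13 (List.drop 13 (List.drop 13 (List.drop 13 (List.drop 13 (List.drop 13 (List.drop 13 (List.drop 13 (List.drop 13 (List.drop 13 (List.drop 13 (List.drop 13 (List.drop 13 (List.drop 13 (List.drop 13 (List.drop 13 (List.drop 13 (List.drop 13 (List.drop 13 (List.drop 13 (List.drop 13 (List.drop 13 (List.drop 13 (List.drop 13 (List.drop 13 (List.drop 13 (List.drop 13 (List.drop 13 (List.drop 13 (List.drop 13 (List.drop 13 (List.drop 13 (sizes))))))))))))))))))))))))))))))))).all (covOK sizes 5308416 frac) = true := by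
  decide +kernel

theorem cov_32 : (List.take 13 (List.drop 13 (List.drop 13 (List.drop 13 (List.drop 13 (List.drop 13 (List.drop 13 (List.drop 13 (List.drop 13 (List.drop 13 (List.drop 13 (List.drop 13 (List.drop 13 (List.drop 13 (List.drop 13 (List.drop 13 (List.drop 13 (List.drop 13 (List.drop 13 (List.drop 13 (List.drop 13 (List.drop 13 (List.drop 13 (List.drop 13 (List.drop 13 (List.drop 13 (List.drop 13 (List.drop 13 (List.drop 13 (List.drop 13 (List.drop 13 (List.drop 13 (List.drop 13 (sizes)))))))))))))))))))))))))))))))))).all (covOK sizes 5308416 frac) = true := by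
  decide +kernel

theorem cov_33 : (List.drop 13 (List.drop 13 (List.drop 13 (List.drop 13 (List.drop 13 (List.drop 13 (List.drop 13 (List.drop 13 (List.drop 13 (List.drop 13 (List.drop 13 (List.drop 13 (List.drop 13 (List.drop 13 (List.drop 13 (List.drop 13 (List.drop 13 (List.drop 13 (List.drop 13 (List.drop 13 (List.drop 13 (List.drop 13 (List.drop 13 (List.drop 13 (List.drop 13 (List.drop 13 (List.drop 13 (List.drop 13 (List.drop 13 (List.drop 13 (List.drop 13 (List.drop 13 (List.drop 13 (sizes)))))))))))))))))))))))))))))))))).all (covOK sizes 5308416 frac) = true := by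
  decide +kernel

theorem frac_cfg : frac.all (cfgOK sizes cap) = true :=
  all_split 15 cfg_0 (all_split 15 cfg_1 (all_split 15 cfg_2 (all_split 15 cfg_3 (all_split 15 cfg_4 (all_split 15 cfg_5 (all_split 15 cfg_6 (all_split 15 cfg_7 (all_split 15 cfg_8 (all_split 15 cfg_9 (all_split 15 cfg_10 (all_split 15 cfg_11 (all_split 15 cfg_12 (all_split 15 cfg_13 (all_split 15 cfg_14 (all_split 15 cfg_15 (all_split 15 cfg_16 (all_split 15 cfg_17 (all_split 15 cfg_18 (all_split 15 cfg_19 (all_split 15 cfg_20 (all_split 15 cfg_21 (cfg_22))))))))))))))))))))))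

theorem frac_cov : sizes.all (covOK sizes 5308416 frac) = true :=
  all_split 13 cov_0 (all_split 13 cov_1 (all_split 13 cov_2 (all_split 13 cov_3 (all_split 13 cov_4 (all_split 13 cov_5 (all_split 13 cov_6 (all_split 13 cov_7 (all_split 13 cov_8 (all_split 13 cov_9 (all_split 13 cov_10 (all_split 13 cov_11 (all_split 13 cov_12 (all_split 13 cov_13 (all_split 13 cov_14 (all_split 13 cov_15 (all_split 13 cov_16 (all_split 13 cov_17 (all_split 13 cov_18 (all_split 13 cov_19 (all_split 13 cov_20 (all_split 13 cov_21 (all_split 13 cov_22 (all_split 13 cov_23 (all_split 13 cov_24 (all_split 13 cov_25 (all_split 13 cov_26 (all_split 13 cov_27 (all_split 13 cov_28 (all_split 13 cov_29 (all_split 13 cov_30 (all_split 13 cov_31 (all_split 13 cov_32 (cov_33)))))))))))))))))))))))))))))))))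

theorem frac_ok : fracOK sizes cap 5308416 frac = true := fracOK_of frac_cfg frac_cov

end Vale.Agent.Lib.P302.helper9.Th431
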